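import Vale.Agent.P057G.Fib

/-!
Points of a lattice with prescribed values of finitely many real forms modulo one.
-/

open Matrix Finset
open scoped Real
open Vale.Agent.P267.H775 Vale.Agent.P057G

namespace Vale.Agent.P057CV

noncomputable section

variable {ι κ : Type*} [Fintype ι] [Fintype κ] [DecidableEq ι] [DecidableEq κ]

theorem ker_sum {A : Matrix ι ι ℝ} (hA : A.PosDef) {B : Matrix κ κ ℝ} (hB : B.PosDef)
    (L : Matrix κ ι ℝ) (u : κ → ℝ) :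
    HasSum (fun k : κ → ℤ => vol B * gs B⁻¹ (toR k) * (vol A * th A⁻¹ (Lᵀ *ᵥ toR k)) *
        Real.cos (2 * π * (toR k ⬝ᵥ u)))
      (∑' x : ι → ℤ, gs A (toR x) * th B (L *ᵥ toR x - u)) := by
  have h3 := summable_gs hA 0
  simp only [sub_zero] at h3
  have h := hasSum_fib h3 (fun z => (gs_pos _ _).le) (f := fun _ => 1) (C := 1) (by simp) hB
    fun x => L *ᵥ toR x - u
  simp only [one_mul] at h
  have h2 := Complex.hasSum_re h
  have e : (∑' y : ι → ℤ, (gs A (toR y) : ℂ) * (th B (L *ᵥ toR y - u) : ℂ)) =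
      ((∑' x : ι → ℤ, gs A (toR x) * th B (L *ᵥ toR x - u) : ℝ) : ℂ) := by
    rw [Complex.ofReal_tsum]; simp only [Complex.ofReal_mul]
  rw [e, Complex.ofReal_re] at h2
  refine HasSum.congr_fun h2 fun k => ?_
  have e2 : (∑' y : ι → ℤ, (gs A (toR y) : ℂ) * ee (toR k ⬝ᵥ (L *ᵥ toR y - u))) =
      ((vol A * th A⁻¹ (Lᵀ *ᵥ toR k) : ℝ) : ℂ) * ee (-(toR k ⬝ᵥ u)) := by
    rw [← (hasSum_tw_zero hA _).tsum_eq, ← tsum_mul_right]
    refine tsum_congr fun y => ?_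
    rw [dotProduct_sub, sub_eq_add_neg, ee_add, dotProduct_mulVec, ← mulVec_transpose, mul_assoc]
  rw [e2, Complex.re_ofReal_mul, Complex.re_ofReal_mul, ee_re, mul_neg, Real.cos_neg]
  ring

theorem ker_lower {A : Matrix ι ι ℝ} (hA : A.PosDef) {B : Matrix κ κ ℝ} (hB : B.PosDef)
    (L : Matrix κ ι ℝ) (u : κ → ℝ) {δ R Θ : ℝ} (hδ : 0 ≤ δ) (hf : th A⁻¹ 0 ≤ 2)
    (hΘ : th B⁻¹ 0 ≤ Θ) (h1 : δ * Θ ≤ 1 / 4)
    (h2 : Real.exp (-(π * R / 2)) * (√2 ^ Fintype.card κ * Θ) ≤ 1 / 8)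
    (hu : ∀ k : κ → ℤ, qq B⁻¹ (toR k) ≤ R → δ ≤ th A⁻¹ (Lᵀ *ᵥ toR k) → toR k ⬝ᵥ u = 0) :
    vol A * vol B / 2 ≤ ∑' x : ι → ℤ, gs A (toR x) * th B (L *ᵥ toR x - u) := by
  have vA := vol_pos hA
  have vB := vol_pos hB
  have s1 := hasSum_th hB.inv 0
  simp only [sub_zero] at s1
  have s2 := (summable_ind (summable_gs hB.inv 0) fun z => R ≤ qq B⁻¹ (toR z - 0)).hasSum
  have t2 := tail_norm hB.inv 0 R
  simp only [sub_zero] at s2 t2
  have s0 : HasSum (fun k : κ → ℤ => if k = 0 then (1 : ℝ) else 0) 1 := hasSum_ite_eq 0 1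
  have s := ((s0.sub (s1.mul_left δ)).sub (s2.mul_left 2)).mul_left (vol A * vol B)
  refine le_trans ?_ (hasSum_le (fun k => ?_) s (ker_sum hA hB L u))
  · have a1 : δ * th B⁻¹ 0 ≤ 1 / 4 := (mul_le_mul_of_nonneg_left hΘ hδ).trans h1
    have a2 : Real.exp (-(π * R / 2)) * (√2 ^ Fintype.card κ * th B⁻¹ 0) ≤ 1 / 8 :=
      le_trans (by gcongr) h2
    rw [div_eq_mul_inv]
    exact mul_le_mul_of_nonneg_left (by linarith) (by positivity)
  · have g0 := gs_pos B⁻¹ (toR k)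
    have t0 := th_nonneg A⁻¹ (Lᵀ *ᵥ toR k)
    have t1 : th A⁻¹ (Lᵀ *ᵥ toR k) ≤ 2 := (th_le_th_zero hA.inv _).trans hf
    have e : vol B * gs B⁻¹ (toR k) * (vol A * th A⁻¹ (Lᵀ *ᵥ toR k)) *
        Real.cos (2 * π * (toR k ⬝ᵥ u)) = vol A * vol B *
          (gs B⁻¹ (toR k) * (th A⁻¹ (Lᵀ *ᵥ toR k) * Real.cos (2 * π * (toR k ⬝ᵥ u)))) := by ring
    rw [e]
    refine mul_le_mul_of_nonneg_left ?_ (by positivity)
    have i0 : 0 ≤ if R ≤ qq B⁻¹ (toR k) then gs B⁻¹ (toR k) else 0 := by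
      split_ifs; exacts [g0.le, le_rfl]
    have d0 : 0 ≤ δ * gs B⁻¹ (toR k) := mul_nonneg hδ g0.le
    by_cases hk : k = 0
    · subst hk
      have := one_le_th_zero hA.inv
      simp only [toR_zero, gs_zero, mulVec_zero, zero_dotProduct, mul_zero, Real.cos_zero,
        if_true] at i0 d0 ⊢
      linarith
    rw [if_neg hk]
    have c1 := Real.neg_one_le_cos (2 * π * (toR k ⬝ᵥ u))
    have c2 : -th A⁻¹ (Lᵀ *ᵥ toR k) ≤ th A⁻¹ (Lᵀ *ᵥ toR k) * Real.cos (2 * π * (toR k ⬝ᵥ u)) := by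
      nlinarith
    by_cases hR : R ≤ qq B⁻¹ (toR k)
    · rw [if_pos hR]; nlinarith
    by_cases hd : δ ≤ th A⁻¹ (Lᵀ *ᵥ toR k)
    · rw [hu k (not_le.1 hR).le hd, mul_zero, Real.cos_zero]; nlinarith
    · nlinarith [not_le.1 hd]

theorem ker_point {A : Matrix ι ι ℝ} (hA : A.PosDef) {B : Matrix κ κ ℝ} (hB : B.PosDef)
    (L : Matrix κ ι ℝ) (u : κ → ℝ) {δ R Θ : ℝ} (hδ : 0 ≤ δ) (hf : th A⁻¹ 0 ≤ 2)
    (hΘ : th B⁻¹ 0 ≤ Θ) (h1 : δ * Θ ≤ 1 / 4)
    (h2 : Real.exp (-(π * R / 2)) * (√2 ^ Fintype.card κ * Θ) ≤ 1 / 16)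
    (h3 : Real.exp (-(π * R / 2)) * (√2 ^ Fintype.card ι * Θ) ≤ 1 / 16)
    (hu : ∀ k : κ → ℤ, qq B⁻¹ (toR k) ≤ R → δ ≤ th A⁻¹ (Lᵀ *ᵥ toR k) → toR k ⬝ᵥ u = 0) :
    ∃ (x : ι → ℤ) (m : κ → ℤ), qq A (toR x) ≤ R ∧ qq B (L *ᵥ toR x - u - toR m) ≤ R := by
  have hl := ker_lower hA hB L u hδ hf hΘ h1 (h2.trans (by norm_num)) hu
  by_contra hno
  push Not at hno
  have vA := vol_pos hA
  have vB := vol_pos hB
  have s1 := hasSum_th hA 0
  have s2 := (summable_ind (summable_gs hA 0) fun z => R ≤ qq A (toR z - 0)).hasSum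
  have t2 := tail_norm hA 0 R
  simp only [sub_zero] at s1 s2 t2
  set c := Real.exp (-(π * R / 2)) with hc
  have c0 : 0 < c := Real.exp_pos _
  have s := (s2.mul_right (th B 0)).add (s1.mul_right (c * (√2 ^ Fintype.card κ * th B 0)))
  have s3 := summable_th_mul s1.summable (fun z => (gs_pos _ _).le) hB fun x => L *ᵥ toR x - u
  have hu := hasSum_le (fun x => ?_) s3.hasSum s
  · have a1 : th A 0 ≤ 2 * vol A := by rw [th_zero_eq hA]; nlinarith
    have a2 : th B 0 ≤ Θ * vol B := by rw [th_zero_eq hB]; nlinarith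
    have b0 := th_nonneg B 0
    have a0 := th_nonneg A 0
    have Θ0 : 0 ≤ Θ := (th_nonneg _ _).trans hΘ
    have u1 : (∑' z : ι → ℤ, if R ≤ qq A (toR z) then gs A (toR z) else 0) * th B 0 ≤
        vol A * vol B / 8 := by
      calc _ ≤ c * (√2 ^ Fintype.card ι * (2 * vol A)) * (Θ * vol B) := by
            refine mul_le_mul (t2.trans (by gcongr)) a2 b0 (by positivity)
        _ = c * (√2 ^ Fintype.card ι * Θ) * (2 * (vol A * vol B)) := by ring
        _ ≤ 1 / 16 * (2 * (vol A * vol B)) := by gcongr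
        _ = _ := by ring
    have u2 : th A 0 * (c * (√2 ^ Fintype.card κ * th B 0)) ≤ vol A * vol B / 8 := by
      calc _ ≤ 2 * vol A * (c * (√2 ^ Fintype.card κ * (Θ * vol B))) := by gcongr
        _ = c * (√2 ^ Fintype.card κ * Θ) * (2 * (vol A * vol B)) := by ring
        _ ≤ 1 / 16 * (2 * (vol A * vol B)) := by gcongr
        _ = _ := by ring
    have := mul_pos vA vB
    linarith
  · have g0 := gs_pos A (toR x)
    have b0 := th_nonneg B 0
    by_cases hx : R ≤ qq A (toR x)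
    · rw [if_pos hx]
      have := mul_le_mul_of_nonneg_left (th_le_th_zero hB (L *ᵥ toR x - u)) g0.le
      have : 0 ≤ gs A (toR x) * (c * (√2 ^ Fintype.card κ * th B 0)) := by positivity
      linarith
    · rw [if_neg hx, zero_mul, zero_add]
      refine mul_le_mul_of_nonneg_left ?_ g0.le
      refine le_trans (le_of_eq ?_) (tail_norm hB (L *ᵥ toR x - u) R)
      refine tsum_congr fun m => (if_pos ?_).symm
      rw [← qq_neg, neg_sub]
      exact (hno x m (not_le.1 hx).le).le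

theorem qq_one (x : κ → ℝ) : qq (1 : Matrix κ κ ℝ) x = ∑ i, x i ^ 2 := by
  simp only [qq, one_mulVec, dotProduct, sq]

theorem sq_le_qq_one (x : κ → ℝ) (i : κ) : x i ^ 2 ≤ qq (1 : Matrix κ κ ℝ) x := by
  rw [qq_one]
  exact single_le_sum (f := fun i => x i ^ 2) (fun _ _ => sq_nonneg _) (mem_univ i)

theorem sqrt_two_pow_le (n : ℕ) : √2 ^ n ≤ Real.exp n := by
  rw [← Real.exp_one_pow]
  refine pow_le_pow_left₀ (Real.sqrt_nonneg _) ?_ n
  rw [Real.sqrt_le_iff]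
  have := Real.add_one_le_exp 1
  exact ⟨(Real.exp_pos _).le, by nlinarith⟩

theorem th_one_le {a : ℝ} (ha : (Fintype.card κ : ℝ) + 1 ≤ a) :
    th (a • (1 : Matrix κ κ ℝ)) 0 ≤ 2 := by
  have n0 : (0 : ℝ) ≤ Fintype.card κ := Nat.cast_nonneg _
  have a0 : 0 < a := by linarith
  have hG : (a • (1 : Matrix κ κ ℝ)).PosDef := PosDef.one.smul a0
  have s1 := hasSum_th hG 0
  have s2 := (summable_ind (summable_gs hG 0) fun z => a ≤ qq (a • 1) (toR z - 0)).hasSum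
  have t2 := tail_norm hG 0 a
  simp only [sub_zero] at s1 s2 t2
  have s0 : HasSum (fun k : κ → ℤ => if k = 0 then (1 : ℝ) else 0) 1 := hasSum_ite_eq 0 1
  have h := hasSum_le (fun k => ?_) s1 (s0.add s2)
  · have c : Real.exp (-(π * a / 2)) * √2 ^ Fintype.card κ ≤ 1 / 2 := by
      refine (mul_le_mul_of_nonneg_left (sqrt_two_pow_le _) (Real.exp_pos _).le).trans ?_
      rw [← Real.exp_add]
      have h3 := Real.two_le_pi
      refine (Real.exp_le_exp.2 (show _ ≤ (-1 : ℝ) by nlinarith)).trans ?_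
      rw [Real.exp_neg, inv_le_comm₀ (Real.exp_pos _) (by norm_num)]
      have := Real.add_one_le_exp 1
      linarith
    have := th_nonneg (a • (1 : Matrix κ κ ℝ)) 0
    rw [← mul_assoc] at t2
    nlinarith
  · by_cases hk : k = 0
    · subst hk
      rw [if_pos rfl, toR_zero, gs_zero]
      split_ifs <;> norm_num
    · obtain ⟨i, hi⟩ := Function.ne_iff.1 hk
      have h1 : (1 : ℝ) ≤ toR k i ^ 2 := by
        have : (1 : ℤ) ≤ k i ^ 2 := by
          have : k i ≠ 0 := hi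
          have : 0 < k i ^ 2 := by positivity
          omega
        change (1 : ℝ) ≤ ((k i : ℤ) : ℝ) ^ 2
        exact_mod_cast this
      rw [if_neg hk, zero_add, if_pos]
      rw [qq_smul_mat]
      nlinarith [sq_le_qq_one (toR k) i]

theorem th_one_inv_le {c b : ℝ} (hc : 1 ≤ c) (hb : (Fintype.card κ : ℝ) + 1 ≤ b ^ 2)
    (hb0 : 0 ≤ b) : th (c ^ 2 • (1 : Matrix κ κ ℝ))⁻¹ 0 ≤ (c * b) ^ Fintype.card κ * 2 := by
  have n0 : (0 : ℝ) ≤ Fintype.card κ := Nat.cast_nonneg _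
  have b1 : 1 ≤ b := by nlinarith
  have cb : 1 ≤ c * b := by nlinarith
  have hG : (b ^ 2 • (1 : Matrix κ κ ℝ)).PosDef := PosDef.one.smul (by positivity)
  have h := th_smul_le (c := ((c * b) ^ 2)⁻¹) (by positivity)
    (inv_le_one_of_one_le₀ (one_le_pow₀ cb)) hG 0
  rw [smul_smul, Real.sqrt_inv, inv_inv, Real.sqrt_sq (by positivity)] at h
  rw [inv_smul_mat (by positivity) PosDef.one, inv_one,
    show (c ^ 2)⁻¹ = ((c * b) ^ 2)⁻¹ * b ^ 2 by field_simp]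
  exact h.trans (mul_le_mul_of_nonneg_left (th_one_le hb) (by positivity))

end

end Vale.Agent.P057CV
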