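import Vale.Agent.P057CV.Ker
import Vale.Agent.P057HU.Gau

/-!
An additive map on an extended lattice that is small on a dense set of small points is small
on the vertical vectors orthogonal to the short relations.
-/

set_option linter.all false

open Matrix Finset
open scoped Real
open Vale.Agent.P267.H775 Vale.Agent.P057G Vale.Agent.P057HU

namespace Vale.Agent.P057CV

noncomputable section

variable {ι κ : Type*} [Fintype ι] [Fintype κ] [DecidableEq ι] [DecidableEq κ]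

theorem sqrt_qq_add {G : Matrix ι ι ℝ} (hG : G.PosDef) (x y : ι → ℝ) :
    √(qq G (x + y)) ≤ √(qq G x) + √(qq G y) := by
  obtain ⟨T, -, hn⟩ := exists_T hG
  rw [← hn, ← hn, ← hn, map_add]
  exact norm_add_le _ _

theorem sqrt_qq_sub {G : Matrix ι ι ℝ} (hG : G.PosDef) (x y : ι → ℝ) :
    √(qq G (x - y)) ≤ √(qq G x) + √(qq G y) := by
  rw [sub_eq_add_neg, ← qq_neg G y]
  exact sqrt_qq_add hG _ _

theorem shift_lower {G : Matrix ι ι ℝ} (hG : G.PosDef) (h0 : th G 0 ≤ 3 / 2 * vol G) (x : ι → ℝ)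
    (S : Set (ι → ℤ)) {β : ℝ} (hβ : 0 < β)
    (hw : β * vol G ≤ ∑' z, S.indicator (fun y => gs G (toR y - x)) z) (v : ι → ℤ)
    (hv : qq G (toR v) ≤ 1 / 16) :
    β ^ 2 * vol G / 3 ≤ ∑' z, S.indicator (fun y => gs G (toR (y + v) - x)) z := by
  have hv0 := vol_pos hG
  have h1 := shift_weight hG x S v
  have h2 : Real.exp (2 * π * qq G (toR v)) ≤ 2 := by
    have h3 : 2 * π * qq G (toR v) ≤ 1 / 2 := by
      nlinarith [Real.pi_le_four, Real.pi_pos, qq_nonneg hG.posSemidef (toR v)]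
    refine (Real.exp_le_exp.mpr h3).trans ?_
    have h4 := Real.exp_one_lt_three
    have e2 : Real.exp 1 = Real.exp (1 / 2) ^ 2 := by
      rw [← Real.exp_nat_mul]; congr 1; push_cast; ring
    nlinarith [Real.exp_pos (1 / 2)]
  set B := ∑' z, S.indicator (fun y => gs G (toR (y + v) - x)) z
  have hB : 0 ≤ B := tsum_nonneg fun y => Set.indicator_nonneg (fun _ _ => (gs_pos _ _).le) y
  have h5 : (β * vol G) ^ 2 ≤ B * (3 * vol G) := by
    refine (pow_le_pow_left₀ (by positivity) hw 2).trans (h1.trans ?_)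
    refine mul_le_mul_of_nonneg_left ?_ hB
    nlinarith [th_nonneg G 0, Real.exp_pos (2 * π * qq G (toR v))]
  rw [div_le_iff₀ (by norm_num)]
  nlinarith

/-- the size of a point of the extended lattice -/
def nm (G : Matrix ι ι ℝ) (γ : Matrix κ ι ℝ) (τ : ℝ) (p : (ι → ℤ) × (κ → ℤ)) : ℝ :=
  √(qq G (toR p.1)) + ‖γ *ᵥ toR p.1 - toR p.2‖ / τ

theorem nm_zero (G : Matrix ι ι ℝ) (γ : Matrix κ ι ℝ) (τ : ℝ) : nm G γ τ 0 = 0 := by
  simp [nm, toR_zero, qq_zero]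

theorem nm_add {G : Matrix ι ι ℝ} (hG : G.PosDef) (γ : Matrix κ ι ℝ) {τ : ℝ} (hτ : 0 < τ)
    (p p' : (ι → ℤ) × (κ → ℤ)) : nm G γ τ (p + p') ≤ nm G γ τ p + nm G γ τ p' := by
  have h1 := sqrt_qq_add hG (toR p.1) (toR p'.1)
  have h2 := norm_add_le (γ *ᵥ toR p.1 - toR p.2) (γ *ᵥ toR p'.1 - toR p'.2)
  have e : γ *ᵥ toR (p + p').1 - toR (p + p').2 =
      γ *ᵥ toR p.1 - toR p.2 + (γ *ᵥ toR p'.1 - toR p'.2) := by
    rw [Prod.fst_add, Prod.snd_add, toR_add, toR_add, mulVec_add]; abel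
  unfold nm
  rw [e, Prod.fst_add, toR_add]
  have := div_le_div_of_nonneg_right h2 hτ.le
  rw [add_div] at this
  linarith

theorem toR_sub' {α : Type*} (x y : α → ℤ) : toR (x - y) = toR x - toR y := by
  funext i; simp [toR]

theorem int_eq_of_norm {a b : κ → ℤ} (h : ‖toR a - toR b‖ < 1) : a = b := by
  funext i
  have h1 := (norm_le_pi_norm (toR a - toR b) i).trans_lt h
  have h2 : |((a i - b i : ℤ) : ℝ)| < 1 := by simpa [toR] using h1
  have h3 : |a i - b i| < 1 := by exact_mod_cast h2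
  have := abs_lt.1 h3
  omega

variable {E : Type*} [NormedAddCommGroup E] [NormedSpace ℝ E]

/-- small on a dense set implies small on all small points, after one multiplier -/
theorem small_of_dense {G : Matrix ι ι ℝ} (hG : G.PosDef) (hf : th G⁻¹ 0 ≤ 3 / 2)
    (γ : Matrix κ ι ℝ) (cen : κ → ℝ) {τ : ℝ} (hτ : 0 < τ) (hτ1 : τ ≤ 1 / 4) (M : ℕ) {β K : ℝ}
    (hβ : 0 < β) (hM : 5 ≤ M * β ^ 2) (hK : 0 ≤ K) (Γ : AddSubgroup E)
    (hΓ : ∀ g ∈ Γ, ‖g‖ ≤ (M : ℝ) ^ 3 * (6 * K) → g = 0) (L : (ι → ℤ) × (κ → ℤ) →+ E)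
    (x : ι → ℝ) (S : Set (ι → ℤ)) (m : (ι → ℤ) → κ → ℤ) (c : E)
    (hm : ∀ s ∈ S, ‖γ *ᵥ toR s - cen - toR (m s)‖ ≤ τ) (hS : ∀ s ∈ S, Cl Γ K (L (s, m s) - c))
    (hw : β * vol G ≤ ∑' z, S.indicator (fun y => gs G (toR y - x)) z) :
    ∃ q : ℕ, 1 ≤ q ∧ q ≤ M ∧ ∀ p, nm G γ τ p ≤ 1 / (4 * (M : ℝ) ^ 2) →
      Cl Γ (q * (2 * K)) (q • L p) := by
  have hM1 : 1 ≤ M := by
    rcases Nat.eq_zero_or_pos M with h | h
    · rw [h] at hM; norm_num at hM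
    · exact h
  have hM' : (1 : ℝ) ≤ M := by exact_mod_cast hM1
  have hv := vol_pos hG
  have h0 : th G 0 ≤ 3 / 2 * vol G := by rw [th_zero_eq hG]; nlinarith
  refine one_den Γ L (nm G γ τ) (nm_zero G γ τ) (nm_add hG γ hτ) M hM1 (2 * K) _ (by positivity)
    (by positivity) (fun g hg h => hΓ g hg (h.trans (le_of_eq (by ring)))) fun v hv' => ?_
  have e : (M : ℝ) ^ 2 * (1 / (4 * (M : ℝ) ^ 2)) = 1 / 4 := by field_simp
  rw [e] at hv'
  have a1 : ∀ i, √(qq G (toR (v i).1)) ≤ 1 / 4 := fun i =>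
    le_trans (le_add_of_nonneg_right (by positivity)) (hv' i)
  have a2 : ∀ i, ‖γ *ᵥ toR (v i).1 - toR (v i).2‖ ≤ τ / 4 := fun i => by
    have : ‖γ *ᵥ toR (v i).1 - toR (v i).2‖ / τ ≤ 1 / 4 :=
      le_trans (le_add_of_nonneg_left (Real.sqrt_nonneg _)) (hv' i)
    rw [div_le_iff₀ hτ] at this
    linarith
  have g3 : ∑' y : ι → ℤ, gs G (toR y - x) < (M + 1) * (β ^ 2 * vol G / 3) := by
    have h1 : th G x ≤ 3 / 2 * vol G := (th_le_th_zero hG x).trans h0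
    refine lt_of_le_of_lt h1 ?_
    nlinarith [mul_pos (pow_pos hβ 2) hv]
  obtain ⟨i, j, hij, s, hs, s', hs', h⟩ := translates_meet (fun y => gs G (toR y - x))
    (fun _ => (gs_pos _ _).le) (summable_gs hG x) S M _ g3 (fun i => (v i).1) fun i =>
      shift_lower hG h0 x S hβ hw _ (by
        have := Real.sqrt_le_iff.1 (a1 i)
        linarith [this.2])
  refine ⟨i, j, hij, ?_⟩
  have e1 : (v i).2 - (v j).2 = m s - m s' := by
    refine int_eq_of_norm ?_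
    have e2 : toR ((v i).2 - (v j).2) - toR (m s - m s') =
        (γ *ᵥ toR s - cen - toR (m s)) - (γ *ᵥ toR s' - cen - toR (m s')) -
          ((γ *ᵥ toR (v i).1 - toR (v i).2) - (γ *ᵥ toR (v j).1 - toR (v j).2)) := by
      have e3 : γ *ᵥ toR (v i).1 - γ *ᵥ toR (v j).1 = γ *ᵥ toR s - γ *ᵥ toR s' := by
        rw [← mulVec_sub, ← mulVec_sub, ← toR_sub', ← toR_sub', h]
      rw [toR_sub', toR_sub']
      rw [sub_eq_iff_eq_add] at e3
      rw [e3]; abel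
    rw [e2]
    have n1 := norm_sub_le (γ *ᵥ toR s - cen - toR (m s)) (γ *ᵥ toR s' - cen - toR (m s'))
    have n2 := norm_sub_le (γ *ᵥ toR (v i).1 - toR (v i).2) (γ *ᵥ toR (v j).1 - toR (v j).2)
    refine (norm_sub_le _ _).trans_lt ?_
    linarith [hm s hs, hm s' hs', a2 i, a2 j]
  have e4 : v i - v j = (s, m s) - (s', m s') := Prod.ext h e1
  refine (((hS s hs).add (hS s' hs').neg).congr ?_).mono (le_of_eq (by ring))
  rw [e4, map_sub]; abel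

theorem walk {A : Type*} [AddCommGroup A] (Γ : AddSubgroup E) (L : A →+ E) (p : ℕ → A) (ε : ℝ)
    (J : ℕ) (h : ∀ j < J, Cl Γ ε (L (p (j + 1) - p j))) : Cl Γ (J * ε) (L (p J - p 0)) := by
  induction J with
  | zero => simpa using Cl.of_mem Γ.zero_mem
  | succ J ih =>
    refine (((ih fun j hj => h j (by omega)).add (h J (by omega))).congr ?_).mono
      (le_of_eq (by push_cast; ring))
    rw [← map_add]; congr 1; abel

/-- the integer vector `k` gives a short relation -/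
def Rel (G : Matrix ι ι ℝ) (γ : Matrix κ ι ℝ) (K0 H : ℝ) (k : κ → ℤ) : Prop :=
  (∀ r, |(k r : ℝ)| ≤ K0) ∧ ∃ n : ι → ℤ, qq G⁻¹ (toR n - γᵀ *ᵥ toR k) ≤ H

theorem exp_num {P : ℝ} (hP : 10 ≤ P) {n : ℕ} (hn : (n : ℝ) ≤ P) :
    Real.exp (-(π * (20 * P ^ 2) / 2)) * (√2 ^ n * Real.exp (8 * P ^ 2)) ≤ 1 / 16 := by
  have h1 : √2 ^ n * Real.exp (8 * P ^ 2) ≤ Real.exp n * Real.exp (8 * P ^ 2) :=
    mul_le_mul_of_nonneg_right (sqrt_two_pow_le n) (Real.exp_pos _).le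
  refine (mul_le_mul_of_nonneg_left h1 (Real.exp_pos _).le).trans ?_
  rw [← Real.exp_add, ← Real.exp_add]
  have h2 := Real.two_le_pi
  refine (Real.exp_le_exp.2 (show _ ≤ (-15 : ℝ) by nlinarith)).trans ?_
  rw [Real.exp_neg, inv_le_comm₀ (Real.exp_pos _) (by norm_num)]
  have := Real.add_one_le_exp 15
  linarith

/-- a point with prescribed positions -/
theorem point_near {G : Matrix ι ι ℝ} (hG : G.PosDef) {P τ : ℝ} (hP : 10 ≤ P)
    (hι : (Fintype.card ι : ℝ) ≤ P) (hκ : (Fintype.card κ : ℝ) ≤ P) (hτ : 1 ≤ τ * P)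
    (hτ1 : τ ≤ 1) (hf : th (P ^ 11 • G)⁻¹ 0 ≤ 3 / 2) (γ : Matrix κ ι ℝ) (u : κ → ℝ)
    (hu : ∀ k, Rel G γ (P ^ 8) (P ^ 13) k → toR k ⬝ᵥ u = 0) :
    ∃ (x : ι → ℤ) (m : κ → ℤ), √(qq G (toR x)) ≤ 5 / P ^ 4 ∧
      ‖γ *ᵥ toR x - u - toR m‖ ≤ 5 / P ^ 4 * τ := by
  have P0 : 0 < P := by linarith
  have τ0 : 0 < τ := by nlinarith
  set c := P ^ 5 / τ with hc
  have P5 : 1 ≤ P ^ 5 := one_le_pow₀ (by linarith)
  have c1 : 1 ≤ c := by rw [hc, le_div_iff₀ τ0]; linarith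
  have c6 : c ≤ P ^ 6 := by
    rw [hc, div_le_iff₀ τ0, pow_succ P 5, mul_assoc]
    exact le_mul_of_one_le_right (by positivity) (by linarith)
  have hA : (P ^ 10 • G).PosDef := hG.smul (by positivity)
  have hB : (c ^ 2 • (1 : Matrix κ κ ℝ)).PosDef := PosDef.one.smul (by positivity)
  have h8 : th ((8 : ℝ) • P ^ 10 • G)⁻¹ 0 ≤ 2 := by
    refine le_trans (th_inv_mono (hA.smul (by norm_num)) (hG.smul (by positivity)) (fun y => ?_) 0)
      (hf.trans (by norm_num))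
    rw [qq_smul_mat, qq_smul_mat, qq_smul_mat, ← mul_assoc, pow_succ' P 10]
    exact mul_le_mul_of_nonneg_right (by gcongr; linarith) (qq_nonneg hG.posSemidef y)
  have h1 : th (P ^ 10 • G)⁻¹ 0 ≤ 2 := by
    refine le_trans (th_inv_mono hA (hA.smul (by norm_num)) (fun y => ?_) 0) h8
    rw [qq_smul_mat (P ^ 10 • G)]
    nlinarith [qq_nonneg hA.posSemidef y]
  have hΘ : th (c ^ 2 • (1 : Matrix κ κ ℝ))⁻¹ 0 ≤ Real.exp (8 * P ^ 2) := by
    refine (th_one_inv_le (b := P) c1 (by nlinarith) P0.le).trans ?_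
    have a1 : c * P ≤ Real.exp (7 * P) := by
      have : P ≤ Real.exp P := by linarith [Real.add_one_le_exp P]
      calc c * P ≤ P ^ 6 * P := by gcongr
        _ = P ^ 7 := by ring
        _ ≤ Real.exp P ^ 7 := by gcongr
        _ = _ := by rw [← Real.exp_nat_mul]; norm_num
    have a2 : (c * P) ^ Fintype.card κ ≤ Real.exp (7 * P ^ 2) := by
      refine (pow_le_pow_left₀ (by positivity) a1 _).trans ?_
      rw [← Real.exp_nat_mul]
      exact Real.exp_le_exp.2 (by nlinarith)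
    have a3 : 2 ≤ Real.exp (P ^ 2) := by nlinarith [Real.add_one_le_exp (P ^ 2)]
    calc _ ≤ Real.exp (7 * P ^ 2) * Real.exp (P ^ 2) := by gcongr
      _ = _ := by rw [← Real.exp_add]; ring_nf
  have hu' : ∀ k : κ → ℤ, qq (c ^ 2 • (1 : Matrix κ κ ℝ))⁻¹ (toR k) ≤ 20 * P ^ 2 →
      Real.exp (-(9 * P ^ 2)) ≤ th (P ^ 10 • G)⁻¹ (γᵀ *ᵥ toR k) → toR k ⬝ᵥ u = 0 := by
    refine fun k hk hd => hu k ⟨fun r => ?_, ?_⟩
    · rw [inv_smul_mat (by positivity) PosDef.one, inv_one, qq_smul_mat,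
        inv_mul_le_iff₀ (by positivity)] at hk
      have b1 := sq_le_qq_one (toR k) r
      refine abs_le_of_sq_le_sq' (a := (k r : ℝ)) ?_ (by positivity) |> abs_le.2
      calc _ ≤ c ^ 2 * (20 * P ^ 2) := b1.trans hk
        _ ≤ (P ^ 6) ^ 2 * (P ^ 2 * P ^ 2) := by gcongr; nlinarith
        _ = _ := by ring
    · obtain ⟨n, hn⟩ := near_of_th hA.inv (by
        rwa [inv_smul_mat (by norm_num) hA, ← one_div] at h8) _ (Real.exp_pos _) hd
      refine ⟨n, ?_⟩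
      rw [inv_smul_mat (by positivity) hG, qq_smul_mat, Real.log_div (by norm_num)
        (Real.exp_pos _).ne', Real.log_exp] at hn
      have l2 : Real.log 2 ≤ 1 := by linarith [Real.log_le_sub_one_of_pos (show (0 : ℝ) < 2 by norm_num)]
      have q0 := qq_nonneg hG.inv.posSemidef (toR n - γᵀ *ᵥ toR k)
      have b1 : (P ^ 10)⁻¹ * qq G⁻¹ (toR n - γᵀ *ᵥ toR k) ≤ P ^ 3 := by
        have : 0 ≤ (P ^ 10)⁻¹ * qq G⁻¹ (toR n - γᵀ *ᵥ toR k) := by positivity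
        nlinarith [Real.two_le_pi]
      rw [inv_mul_le_iff₀ (by positivity)] at b1
      exact b1.trans (le_of_eq (by ring))
  obtain ⟨x, m, hx, hm⟩ := ker_point hA hB γ u (δ := Real.exp (-(9 * P ^ 2))) (R := 20 * P ^ 2)
    (Real.exp_pos _).le h1 hΘ (by
      rw [← Real.exp_add]
      refine (Real.exp_le_exp.2 (show _ ≤ (-3 : ℝ) by nlinarith)).trans ?_
      rw [Real.exp_neg, inv_le_comm₀ (Real.exp_pos _) (by norm_num)]
      have := Real.add_one_le_exp 3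
      linarith) (exp_num hP hκ) (exp_num hP hι) hu'
  · refine ⟨x, m, ?_, ?_⟩
    · rw [qq_smul_mat] at hx
      refine Real.sqrt_le_iff.2 ⟨by positivity, ?_⟩
      rw [div_pow, le_div_iff₀ (by positivity)]
      refine le_of_mul_le_mul_left (a := P ^ 2) ?_ (by positivity)
      calc _ = P ^ 10 * qq G (toR x) := by ring
        _ ≤ _ := by nlinarith
    · rw [qq_smul_mat] at hm
      refine (pi_norm_le_iff_of_nonneg (by positivity)).2 fun r => ?_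
      have b1 := sq_le_qq_one (γ *ᵥ toR x - u - toR m) r
      rw [Real.norm_eq_abs]
      refine abs_le_of_sq_le_sq' ?_ (by positivity) |> abs_le.2
      refine le_of_mul_le_mul_left (a := c ^ 2) ?_ (by positivity)
      calc _ ≤ 20 * P ^ 2 := le_trans (by gcongr) hm
        _ ≤ 25 * P ^ 2 := by nlinarith
        _ = _ := by rw [hc]; field_simp; norm_num

/-- vertical vectors orthogonal to the short relations -/
theorem vertical {G : Matrix ι ι ℝ} (hG : G.PosDef) {P τ ε : ℝ} (hP : 12 ≤ P)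
    (hι : (Fintype.card ι : ℝ) ≤ P) (hκ : (Fintype.card κ : ℝ) ≤ P) (hτ : 1 ≤ τ * P)
    (hτ1 : τ ≤ 1) (hf : th (P ^ 11 • G)⁻¹ 0 ≤ 3 / 2) (γ : Matrix κ ι ℝ) (Γ : AddSubgroup E)
    (L : (ι → ℤ) × (κ → ℤ) →+ E) (hε : 0 ≤ ε)
    (hL : ∀ p, nm G γ τ p ≤ 1 / (4 * P ^ 2) → Cl Γ ε (L p)) (v : κ → ℤ)
    (hv : ∀ k, Rel G γ (P ^ 8) (P ^ 13) k → k ⬝ᵥ v = 0) :
    Cl Γ (P ^ 5 * (‖toR v‖ + 1) * ε) (L (0, v)) := by
  have P0 : 0 < P := by linarith
  have τ0 : 0 < τ := by nlinarith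
  have v0 := norm_nonneg (toR v)
  obtain ⟨J, hJ1, hJ2⟩ : ∃ J : ℕ, P ^ 4 * (‖toR v‖ + 1) ≤ J ∧ (J : ℝ) ≤ P ^ 5 * (‖toR v‖ + 1) := by
    refine ⟨⌈P ^ 4 * (‖toR v‖ + 1)⌉₊, Nat.le_ceil _, (Nat.ceil_lt_add_one (by positivity)).le.trans ?_⟩
    have : 1 ≤ P ^ 4 * (‖toR v‖ + 1) := one_le_mul_of_one_le_of_one_le
      (one_le_pow₀ (by linarith)) (by linarith)
    nlinarith
  have J0 : (0 : ℝ) < J := lt_of_lt_of_le (by positivity) hJ1
  have key : ∀ j : ℕ, ∃ p : (ι → ℤ) × (κ → ℤ), √(qq G (toR p.1)) ≤ 5 / P ^ 4 ∧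
      ‖γ *ᵥ toR p.1 + ((j : ℝ) / J) • toR v - toR p.2‖ ≤ 5 / P ^ 4 * τ ∧ (j = 0 → p = 0) ∧
      (j = J → p = (0, v)) := by
    intro j
    by_cases h0 : j = 0
    · refine ⟨0, by simp [toR_zero, qq_zero]; positivity, by
        simp [h0, toR_zero]; positivity, fun _ => rfl, fun h => ?_⟩
      rw [← h, h0] at J0; simp at J0
    by_cases h1 : j = J
    · exact ⟨(0, v), by simp [toR_zero, qq_zero]; positivity, by
        simp [h1, toR_zero, div_self J0.ne']; positivity, fun h => absurd h h0, fun _ => rfl⟩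
    obtain ⟨x, m, a, b⟩ := point_near hG (by linarith) hι hκ hτ hτ1 hf γ (-(((j : ℝ) / J) • toR v))
      fun k hk => by
        have : toR k ⬝ᵥ toR v = ((k ⬝ᵥ v : ℤ) : ℝ) := by simp [toR, dotProduct]
        rw [dotProduct_neg, dotProduct_smul, this, hv k hk]; simp
    exact ⟨(x, m), a, by rwa [sub_neg_eq_add] at b, fun h => absurd h h0, fun h => absurd h h1⟩
  choose p p1 p2 p3 p4 using key
  have h := walk Γ L p ε J fun j _ => hL _ ?_
  · rw [p3 0 rfl, p4 J rfl, sub_zero] at h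
    exact h.mono (by gcongr)
  · have e : γ *ᵥ toR (p (j + 1) - p j).1 - toR (p (j + 1) - p j).2 =
        (γ *ᵥ toR (p (j + 1)).1 + (((j + 1 : ℕ) : ℝ) / J) • toR v - toR (p (j + 1)).2) -
          (γ *ᵥ toR (p j).1 + ((j : ℝ) / J) • toR v - toR (p j).2) - (1 / J : ℝ) • toR v := by
      rw [Prod.fst_sub, Prod.snd_sub, toR_sub', toR_sub', mulVec_sub, Nat.cast_succ, add_div,
        add_smul]
      abel
    have n1 : ‖(1 / J : ℝ) • toR v‖ ≤ τ / P ^ 3 := by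
      rw [norm_smul, Real.norm_of_nonneg (by positivity), one_div, inv_mul_le_iff₀ J0,
        ← mul_div_assoc, le_div_iff₀ (by positivity)]
      calc ‖toR v‖ * P ^ 3 ≤ (‖toR v‖ + 1) * P ^ 3 * (τ * P) :=
            le_trans (by gcongr; linarith) (le_mul_of_one_le_right (by positivity) hτ)
        _ = P ^ 4 * (‖toR v‖ + 1) * τ := by ring
        _ ≤ _ := by gcongr
    have n2 : ‖γ *ᵥ toR (p (j + 1) - p j).1 - toR (p (j + 1) - p j).2‖ / τ ≤
        10 / P ^ 4 + 1 / P ^ 3 := by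
      rw [div_le_iff₀ τ0, e]
      refine (norm_sub_le _ _).trans ((add_le_add ((norm_sub_le _ _).trans
        (add_le_add (p2 (j + 1)) (p2 j))) n1).trans (le_of_eq (by ring)))
    have n3 : √(qq G (toR (p (j + 1) - p j).1)) ≤ 10 / P ^ 4 := by
      rw [Prod.fst_sub, toR_sub']
      exact (sqrt_qq_sub hG _ _).trans ((add_le_add (p1 _) (p1 _)).trans (le_of_eq (by ring)))
    refine (add_le_add n3 n2).trans ?_
    rw [le_div_iff₀ (by positivity)]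
    have : (10 / P ^ 4 + (10 / P ^ 4 + 1 / P ^ 3)) * (4 * P ^ 2) = (80 + 4 * P) / P ^ 2 := by
      field_simp; ring
    rw [this, div_le_one (by positivity)]
    nlinarith

/-- the two steps together -/
theorem covr {G : Matrix ι ι ℝ} (hG : G.PosDef) {P τ β K : ℝ} (hP : 12 ≤ P)
    (hι : (Fintype.card ι : ℝ) ≤ P) (hκ : (Fintype.card κ : ℝ) ≤ P) (hτ : 1 ≤ τ * P)
    (hτ1 : τ ≤ 1 / 4) (hf : th (P ^ 11 • G)⁻¹ 0 ≤ 3 / 2) (γ : Matrix κ ι ℝ) (cen : κ → ℝ)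
    (hβ : 0 < β) (hβP : 6 ≤ P * β ^ 2) (hβ1 : β ≤ 1) (hK : 0 ≤ K) (Γ : AddSubgroup E)
    (hΓ : ∀ g ∈ Γ, ‖g‖ ≤ 6 * P ^ 3 * K → g = 0) (L : (ι → ℤ) × (κ → ℤ) →+ E)
    (x : ι → ℝ) (S : Set (ι → ℤ)) (m : (ι → ℤ) → κ → ℤ) (c : E)
    (hm : ∀ s ∈ S, ‖γ *ᵥ toR s - cen - toR (m s)‖ ≤ τ) (hS : ∀ s ∈ S, Cl Γ K (L (s, m s) - c))
    (hw : β * vol G ≤ ∑' z, S.indicator (fun y => gs G (toR y - x)) z) :
    ∃ q : ℕ, 1 ≤ q ∧ (q : ℝ) ≤ P ∧
      (∀ p, nm G γ τ p ≤ 1 / (4 * P ^ 2) → Cl Γ (2 * P * K) (q • L p)) ∧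
      ∀ v : κ → ℤ, (∀ k, Rel G γ (P ^ 8) (P ^ 13) k → k ⬝ᵥ v = 0) →
        Cl Γ (P ^ 7 * (‖toR v‖ + 1) * K) (q • L (0, v)) := by
  have P0 : 0 < P := by linarith
  have f1 : th G⁻¹ 0 ≤ 3 / 2 := (th_inv_mono hG (hG.smul (by positivity)) (fun y => by
    rw [qq_smul_mat]
    exact le_mul_of_one_le_left (qq_nonneg hG.posSemidef y) (one_le_pow₀ (by linarith))) 0).trans hf
  have M1 : (⌊P⌋₊ : ℝ) ≤ P := Nat.floor_le P0.le
  have M2 : P - 1 ≤ (⌊P⌋₊ : ℝ) := by linarith [Nat.lt_floor_add_one P]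
  obtain ⟨q, q1, qM, hq⟩ := small_of_dense hG f1 γ cen (by nlinarith) hτ1 ⌊P⌋₊ hβ (by
      have : β ^ 2 ≤ 1 := pow_le_one₀ hβ.le hβ1
      nlinarith [sq_nonneg β]) hK Γ (fun g hg h => hΓ g hg (h.trans (by
      calc (⌊P⌋₊ : ℝ) ^ 3 * (6 * K) ≤ P ^ 3 * (6 * K) := by gcongr
        _ = _ := by ring))) L x S m c hm hS hw
  have qP : (q : ℝ) ≤ P := le_trans (by exact_mod_cast qM) M1
  have hq' : ∀ p, nm G γ τ p ≤ 1 / (4 * P ^ 2) → Cl Γ (2 * P * K) (q • L p) := fun p hp =>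
    (hq p (hp.trans (by
      have : (0 : ℝ) < ⌊P⌋₊ := by linarith
      gcongr))).mono (by nlinarith)
  refine ⟨q, q1, qP, hq', fun v hv => ?_⟩
  refine (vertical hG hP hι hκ hτ (by linarith) hf γ Γ (q • L) (by positivity)
    (fun p hp => hq' p hp) v hv).mono ?_
  calc P ^ 5 * (‖toR v‖ + 1) * (2 * P * K) ≤ P ^ 5 * (‖toR v‖ + 1) * (P * P * K) := by
        gcongr; linarith
    _ = _ := by ring

end

end Vale.Agent.P057CV
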