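import Vale.Agent.P057CV.Dvm1
import Vale.Agent.P057IV.Plan

/-!
Dense vanishing of a chart.
-/

set_option linter.all false

open Matrix Finset
open scoped Real
open Vale.Agent.P267.H775 Vale.Agent.P057G Vale.Agent.P057MA Vale.Agent.P057HU
open Vale.Agent.P057T1 Vale.Agent.P057IV

namespace Vale.Agent.P057CV

noncomputable section

/-- a set of integer vectors has few generators of its annihilator conditions -/
theorem exists_gen {ϱ : Type*} [Fintype ϱ] (R : Set (ϱ → ℤ)) (h0 : 0 ∈ R) :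
    ∃ k : ϱ → ϱ → ℤ, (∀ t, k t ∈ R) ∧
      ∀ v : ϱ → ℤ, (∀ t, k t ⬝ᵥ v = 0) → ∀ r ∈ R, r ⬝ᵥ v = 0 := by
  classical
  obtain ⟨b, hb, hs, hl⟩ := exists_linearIndependent ℝ (toR '' R)
  have := hl.finite
  have := Fintype.ofFinite b
  obtain ⟨e⟩ : Nonempty (b ↪ ϱ) := Function.Embedding.nonempty_of_card_le (by
    have := hl.fintype_card_le_finrank
    rwa [Module.finrank_fintype_fun_eq_card] at this)
  choose s hs1 hs2 using fun x : b => hb x.2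
  have cd : ∀ a v : ϱ → ℤ, toR a ⬝ᵥ toR v = ((a ⬝ᵥ v : ℤ) : ℝ) := fun a v => by
    simp [toR, dotProduct]
  refine ⟨Function.extend e s 0, fun t => ?_, fun v hv r hr => ?_⟩
  · by_cases ht : ∃ x, e x = t
    · obtain ⟨x, rfl⟩ := ht
      rw [e.injective.extend_apply]; exact hs1 x
    · rw [Function.extend_apply' _ _ _ ht]; exact h0
  · have h1 : toR r ∈ Submodule.span ℝ b := hs ▸ Submodule.subset_span ⟨r, hr, rfl⟩
    have h2 : ∀ u ∈ Submodule.span ℝ b, u ⬝ᵥ toR v = 0 := fun u hu => by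
      induction hu using Submodule.span_induction with
      | mem x hx =>
        have := hv (e ⟨x, hx⟩)
        rw [e.injective.extend_apply] at this
        rw [show x = toR (s ⟨x, hx⟩) from (hs2 ⟨x, hx⟩).symm, cd, this, Int.cast_zero]
      | zero => exact zero_dotProduct _
      | add x y _ _ a b => rw [add_dotProduct, a, b, add_zero]
      | smul a x _ b => rw [smul_dotProduct, b, smul_zero]
    have h3 := h2 _ h1
    rw [cd] at h3
    exact_mod_cast h3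

theorem pigeonF {Ω Λ : Type*} {w : Ω → ℝ} (hw : Wt w) (T : Finset Λ) (hT : T.Nonempty)
    {p : Λ → Ω → Prop} {c : ℝ} (h : c ≤ ∑' y, w y * ind (∃ l ∈ T, p l y)) :
    ∃ l ∈ T, c / T.card ≤ ∑' y, w y * ind (p l y) := by
  have h1 : c ≤ ∑ n ∈ T, ∑' y, w y * ind (p n y) := by
    rw [← Summable.tsum_finsetSum fun n _ => hw.summ fun y => abs_ind _]
    refine h.trans (Summable.tsum_le_tsum (fun y => ?_) (hw.summ fun y => abs_ind _)
      (summable_sum fun n _ => hw.summ fun y => abs_ind _))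
    rw [← mul_sum]
    refine mul_le_mul_of_nonneg_left ?_ (hw.1 y)
    by_cases e : ∃ l ∈ T, p l y
    · obtain ⟨n, h2, h4⟩ := e
      refine (ind_le _).trans (le_trans (ind_pos h4).ge ?_)
      exact single_le_sum (f := fun n => ind (p n y)) (fun _ _ => ind_nonneg _) h2
    · rw [ind_neg e]; exact sum_nonneg fun _ _ => ind_nonneg _
  have hM0 : (0 : ℝ) < T.card := by exact_mod_cast card_pos.2 hT
  exact exists_le_of_sum_le (s := T) (f := fun _ => c / T.card) hT (le_of_eq_of_le (by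
      rw [sum_const, nsmul_eq_mul]; field_simp) h1)

theorem wt_union {Ω κ : Type*} [Fintype κ] {w : Ω → ℝ} (hw : Wt w) (p : κ → Ω → Prop) :
    ∑' y, w y * ind (¬ ∀ r, p r y) ≤ ∑ r, ∑' y, w y * ind (¬ p r y) := by
  rw [← Summable.tsum_finsetSum fun n _ => hw.summ fun y => abs_ind _]
  refine Summable.tsum_le_tsum (fun y => ?_) (hw.summ fun y => abs_ind _)
    (summable_sum fun n _ => hw.summ fun y => abs_ind _)
  rw [← mul_sum]
  refine mul_le_mul_of_nonneg_left ?_ (hw.1 y)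
  by_cases e : ∀ r, p r y
  · rw [ind_neg (not_not.2 e)]; exact sum_nonneg fun _ _ => ind_nonneg _
  · obtain ⟨r, hr⟩ := not_forall.1 e
    exact (ind_le _).trans (le_trans (ind_pos hr).ge
      (single_le_sum (f := fun r => ind (¬ p r y)) (fun _ _ => ind_nonneg _) (mem_univ r)))

theorem pow_exp {a t Y : ℝ} {m : ℕ} (ha : 0 ≤ a) (h : a ≤ Real.exp t) (ht : 0 ≤ t)
    (hm : (m : ℝ) ≤ Y) : a ^ m ≤ Real.exp (Y * t) := by
  refine (pow_le_pow_left₀ ha h m).trans ?_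
  rw [← Real.exp_nat_mul]
  exact Real.exp_le_exp.2 (mul_le_mul_of_nonneg_right hm ht)

variable {V ι : Type*} [DecidableEq ι] [Fintype ι] [DecidableEq V] {S : MS V ι}

theorem nf_base {q : Finset ι} {A : Finset V} {Φ : (ι → ℝ) → ℝ} {K : ℝ} {y y' : ι → ℝ}
    (h : NF S q A Φ K y) (e : ∀ j ∈ q, j ∉ S.sts A → y' j = y j) : NF S q A Φ K y' := by
  obtain ⟨η, a, b, c⟩ := h
  refine ⟨η, a, b, fun z hz => c z ⟨fun j hj => (hz.1 j hj).trans (e j ?_ ?_), hz.2⟩⟩ <;>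
    simp only [mem_sdiff, mem_inter] at hj <;> tauto

theorem nf_mul {q : Finset ι} {A : Finset V} {Φ : (ι → ℝ) → ℝ} {K : ℝ} {y : ι → ℝ}
    (h : NF S q A Φ K y) (n : ℤ) : NF S q A (fun z => n * Φ z) (|(n : ℝ)| * K) y := by
  obtain ⟨η, a, b, c⟩ := h
  refine ⟨fun z => n * η z, a.smul n, (IntV.const n).mul b, fun z hz => ?_⟩
  rw [← mul_sub, abs_mul]
  exact mul_le_mul_of_nonneg_left (c z hz) (abs_nonneg _)

/-- the matrix of the slopes of a family of affine functions in a fibre -/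
def gm (S : MS V ι) (r : Finset ι) (w : V) {ϱ : Type*} (γ : ϱ → (ι → ℝ) → ℝ) (y : ι → ℝ) :
    Matrix ϱ ↥(r ∩ S.st w) ℝ := of fun ρ j => slp (S.st w) (γ ρ) y j

theorem aff_put {r : Finset ι} {w : V} {f : (ι → ℝ) → ℝ} (ho : On r f) (ha : Aff (S.st w) f)
    (y : ι → ℝ) (x : ↥(r ∩ S.st w) → ℝ) :
    f (put _ x y) = f (mix (S.st w) 0 y) + ∑ j : ↥(r ∩ S.st w), slp (S.st w) f y j * x j := by
  have h1 := ha.put_eq (s := r ∩ S.st w) inter_subset_right (y := mix (S.st w) 0 y)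
    (fun i hi _ => mix_pos _ _ hi) x
  simp only [slp, mix_mix] at h1 ⊢
  rw [← h1]
  refine ho _ _ fun j hj => ?_
  by_cases h2 : j ∈ r ∩ S.st w
  · rw [put_pos _ _ h2, put_pos _ _ h2]
  · rw [put_neg _ _ h2, put_neg _ _ h2, mix_neg _ _ fun a => h2 (mem_inter.2 ⟨hj, a⟩)]

/-- a short relation is a nearly integral slope -/
theorem rel_nf (h : S.Ok) (hc : S.Cen) {r : Finset ι} (hr : Cls S r) (w : V) {ϱ : Type*}
    [Fintype ϱ] [DecidableEq ϱ] {γ : ϱ → (ι → ℝ) → ℝ} (ho : ∀ ρ, On r (γ ρ))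
    (ha : ∀ ρ, Aff (S.st w) (γ ρ)) (y : ι → ℝ) {K0 H K : ℝ} {k : ϱ → ℤ}
    (hk : Rel (S.fg r w y) (gm S r w γ y) K0 H k) (hK : 0 ≤ K) (hH : H ≤ K ^ 2) :
    NF S r {w} (lab S w fun u => ∑ ρ, k ρ * γ ρ u) K y := by
  obtain ⟨-, n, hn⟩ := hk
  have hp := h.fg_pos r w y
  refine ⟨fun u => ∑ j : ↥(r ∩ S.st w), n j * u j, ⟨On.sum _ fun j _ => (On.const _ _).map₂
    (On.coord (by rw [sts_single]; exact j.2)) (· * ·), fun v hv => ?_⟩,
    IntV.sum _ fun j _ => (IntV.const _).mul (IntV.coord _), fun u hu => ?_⟩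
  · rw [mem_singleton.1 hv]
    exact Lin.sum _ (fun j => (n j : ℝ)) fun j _ => P057T1.lin_coord (mem_inter.1 j.2).2
  rw [Bal, sts_single] at hu
  have e : ∀ j ∈ r \ S.st w, u j = y j := fun j hj => hu.1 j (by
    simp only [mem_sdiff, mem_inter] at hj ⊢; tauto)
  have h1 := hu.2
  rw [ln2_fg h hc hr w y u e] at h1
  have h2 : ∀ ρ, γ ρ u - γ ρ (mix (S.st w) 0 u) = (gm S r w γ y *ᵥ fun j => u j) ρ := fun ρ => by
    have a1 := aff_put (ho ρ) (ha ρ) y fun j => u j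
    have a2 : γ ρ (put (r ∩ S.st w) (fun j => u j) y) = γ ρ u := ho ρ _ _ fun j hj => by
      by_cases h2 : j ∈ r ∩ S.st w
      · rw [put_pos _ _ h2]
      · rw [put_neg _ _ h2, e j (mem_sdiff.2 ⟨hj, fun a => h2 (mem_inter.2 ⟨hj, a⟩)⟩)]
    have a3 : γ ρ (mix (S.st w) 0 u) = γ ρ (mix (S.st w) 0 y) := ho ρ _ _ fun j hj => by
      by_cases h2 : j ∈ S.st w
      · rw [mix_pos _ _ h2, mix_pos _ _ h2]
      · rw [mix_neg _ _ h2, mix_neg _ _ h2, e j (mem_sdiff.2 ⟨hj, h2⟩)]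
    rw [a3, ← a2, a1, add_sub_cancel_left]; rfl
  have h3 : lab S w (fun u => ∑ ρ, k ρ * γ ρ u) u - ∑ j : ↥(r ∩ S.st w), n j * u j =
      -((fun j : ↥(r ∩ S.st w) => u j) ⬝ᵥ (toR n - (gm S r w γ y)ᵀ *ᵥ toR k)) := by
    rw [dotProduct_sub, mulVec_transpose, dotProduct_comm _ (toR k ᵥ* _), ← dotProduct_mulVec,
      dotProduct_comm, lab, ← sum_sub_distrib]
    simp only [← mul_sub, h2, neg_sub]
    rfl
  rw [h3, abs_neg]
  refine abs_le_of_sq_le_sq' ((dot_sq_le hp _ _).trans ?_) hK |> abs_le.2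
  exact (mul_le_mul h1 (hn.trans hH) (qq_nonneg hp.inv.posSemidef _) zero_le_one).trans_eq
    (one_mul _)

/-- from dense fibres to a dense set -/
theorem fib_up (h : S.Ok) (hc : S.Cen) (r : Finset ι) (w : V) {E E' g : (ι → ℤ) → Prop}
    {β δ : ℝ} (hβ : 0 ≤ β)
    (hg : ∀ y, g y → Fib S r w E β y ∧ ∀ x, E (put (r ∩ S.st w) x y) → E' (put _ x y))
    (hδ : δ * vl S.G (r \ S.st w) ≤ ∑' y, S.wt (r \ S.st w) y * ind (g y)) :
    β * δ * vl S.G r ≤ ∑' z, S.wt r z * ind (E' z) := by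
  have s0 := h.hasSum_fibre r w (F := fun y => ind (E' y)) (h.summable_re _ fun _ => abs_ind _)
  simp only [hc.fcn] at s0
  have pP := vl_pos h.pd (r ∩ S.st w)
  refine le_trans ?_ (hasSum_le (fun y => ?_)
    ((h.summable_re (r \ S.st w) fun y => abs_ind (g y)).hasSum.mul_right
      (β * vl S.G (r ∩ S.st w))) s0)
  · rw [h.vl_st r w]
    nlinarith [mul_le_mul_of_nonneg_right hδ (mul_nonneg hβ pP.le)]
  have hH := h.fg_pos r w (toR y)
  rw [mul_assoc]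
  refine mul_le_mul_of_nonneg_left ?_ (MS.wt_nonneg _ _)
  by_cases hy : g y
  · rw [ind_pos hy, one_mul, ← h.vol_fg r w (toR y)]
    exact (hg y hy).1.trans (Summable.tsum_le_tsum (fun x => mul_le_mul_of_nonneg_left
      (ind_mono ((hg y hy).2 x)) (gs_pos _ _).le) ((wt_gs hH 0).summ fun _ => abs_ind _)
      ((wt_gs hH 0).summ fun _ => abs_ind _))
  · rw [ind_neg hy, zero_mul]
    exact tsum_nonneg fun x => mul_nonneg (gs_pos _ _).le (ind_nonneg _)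

variable [Fintype V]

theorem fib_r (h : S.Ok) (hc : S.Cen) {q r : Finset ι} (hq : Cls S q) {A : Finset V} {w : V}
    (hw : w ∉ A) (hr : q \ S.sts A = r) {Ψ : (ι → ℝ) → ℝ} (hΨ : Fm S q A Ψ)
    (hΨw : Aff (S.st w) Ψ) {ϱ : Type*} [Fintype ϱ] [DecidableEq ϱ] {c γ : ϱ → (ι → ℝ) → ℝ}
    (hcf : ∀ ρ, Fm S (q \ S.st w) A (c ρ)) (ho : ∀ ρ, On r (γ ρ))
    (ha : ∀ ρ, Aff (S.st w) (γ ρ)) {y : ι → ℤ} {K β W : ℝ} (hK : 0 ≤ K) {D M : ℕ}
    (hD : q.card ≤ D) (hD1 : 1 ≤ D) (hDM : D ≤ M) (hM : 12 ≤ M) (hϱ : Fintype.card ϱ ≤ M)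
    (hβ : 0 < β) (hβ1 : β ≤ 1) (hβM : 6 ≤ M * (β ^ 4 / 8192) ^ 2) (hW : (M : ℝ) ^ 11 ≤ W ^ 2)
    (hG : Gen S q A w K D M β W y) {E : (ι → ℤ) → Prop}
    (hm : ∀ z, E z → ∀ ρ, |γ ρ (toR z) - round (γ ρ (toR z))| ≤ 1 / 100)
    (hE : ∀ z, E z → NF S q A
      (fun u => 0 - Ψ u - ∑ ρ, (round (γ ρ u) : ℝ) * c ρ u) K (toR z))
    (hF : Fib S r w E β y) :
    ∃ n : ℕ, 1 ≤ n ∧ n ≤ M ∧ ∀ v : ϱ → ℤ, (∀ k, Rel (S.fg r w (toR y)) (gm S r w γ (toR y))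
      ((M : ℝ) ^ 8) ((M : ℝ) ^ 13) k → k ⬝ᵥ v = 0) →
      NF S (q \ S.st w) A (fun z => n * ∑ ρ, v ρ * c ρ z)
        ((M : ℝ) ^ 7 * (‖toR v‖ + 1) * K) (toR y) := by
  subst hr
  refine fib_m h hc hq hw hΨ hΨw hcf hK hD hD1 hDM hM hϱ hβ hβ1 hβM hW hG
    (fun x ρ => round (γ ρ (toR (put _ x y)))) _ (fun ρ => -γ ρ (mix (S.st w) 0 (toR y)))
    (fun x hx ρ => le_trans (le_of_eq_of_le (congrArg _ ?_) (hm _ hx ρ)) (by norm_num))
    (fun x hx => ?_) hF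
  · rw [toR_put, aff_put (ho ρ) (ha ρ), sub_neg_eq_add, add_comm]; rfl
  · obtain ⟨η, a, b, d⟩ := hE _ hx
    refine ⟨fun z => -η z, a.neg, b.neg, fun z hz => ?_⟩
    have e : ∀ ρ, γ ρ z = γ ρ (toR (put _ x y)) := fun ρ => ho ρ _ _ fun j hj => hz.1 j (by
      simp only [mem_sdiff, mem_inter] at hj ⊢; tauto)
    have := d z hz
    simp only [e] at this
    rw [← abs_neg]
    refine le_of_eq_of_le (congrArg _ ?_) this
    ring

end

theorem dvm_core {V ι κ ϱ : Type} [Fintype V] [DecidableEq V] [Fintype ι] [DecidableEq ι]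
    [Fintype κ] [Fintype ϱ] {S : MS V ι} (h : S.Ok) (hc : S.Cen) {B : Finset V} {i : V}
    (hi : i ∈ B) {ty : κ → Finset V} (hty : ∀ r, (ty r).Nonempty ∧ Disjoint (ty r) B)
    {E : (ι → ℝ) → Prop} {γ : ϱ → (ι → ℝ) → ℝ} {Ψ : κ → (ι → ℝ) → ℝ}
    {c : κ → ϱ → (ι → ℝ) → ℝ} {K β W η : ℝ} {D M : ℕ}
    (hch : Chart S B i ty (fun _ _ => 0) E K γ Ψ c) (hK : 0 ≤ K) (hD : Fintype.card ι ≤ D)
    (hD1 : 1 ≤ D) (hDM : D ≤ M) (hM : 12 ≤ M) (hϱ : Fintype.card ϱ ≤ M) (hβ : 0 < β)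
    (hβ1 : β ≤ 1) (hβM : 6 ≤ M * ((β / 2) ^ 4 / 8192) ^ 2) (hW : (M : ℝ) ^ 11 ≤ W ^ 2)
    (W1 : 1 ≤ W) {ε : ℝ} (hn : ∀ a : ℕ, a ≤ Fintype.card V →
      3 * ((4 * K + 1) * (4 * D + 2 * a + 2)) ≤ W ∧
      ((M : ℝ) ^ 3 * (6 * K) + 1) * (D + 2 * a + 2) ≤ W ∧
      2 ^ 18 * 7 ^ a * η / (β / 2) ^ 4 ≤ ε) (hε : Fintype.card κ * ε ≤ β / 8)
    (hη : 2 * η ≤ β / 8) (hs : Smo S univ 4 W η) (hd : β ≤ den S B E) :
    ∃ (l : κ → ℕ) (k : ϱ → ϱ → ℤ), (∀ r, 1 ≤ l r ∧ l r ≤ M) ∧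
      (∀ t ρ, |(k t ρ : ℝ)| ≤ (M : ℝ) ^ 8) ∧ β / 2 * (β / 4 / ((M : ℝ) ^ Fintype.card κ *
        ((2 * (M : ℝ) ^ 8 + 1) ^ Fintype.card ϱ) ^ Fintype.card ϱ)) ≤ den S B fun z => E z ∧
      (∀ t, Nr S {i} (B.erase i) (lab S i fun w => ∑ ρ, k t ρ * γ ρ w) ((M : ℝ) ^ 7) z) ∧
      ∀ v : ϱ → ℤ, (∀ t, ∑ ρ, k t ρ * v ρ = 0) → ∀ r, Nr S (ty r) (B.erase i)
        (fun w => l r * ∑ ρ, v ρ * c r ρ w) ((M : ℝ) ^ 7 * (‖toR v‖ + 1) * K) z := by
  classical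
  have hr := cls_fce S B
  have W0 : 0 < W := by linarith
  have M0 : 1 ≤ M := by omega
  have M1 : (1 : ℝ) ≤ M := by exact_mod_cast M0
  have hsm : ∀ F, Smo S (fce S F) 4 W η := fun F =>
    Smo.mono h hc (cls_univ S) (cls_fce S F) hs (subset_univ _) le_rfl W0 le_rfl le_rfl
  have hni : ∀ r, i ∉ ty r := fun r a => disjoint_left.1 (hty r).2 a hi
  have e1 : ∀ r, fce S (ty r ∪ B) \ S.sts (ty r) = fce S B := fun r => by
    ext j
    simp only [mem_sdiff, mem_fce, MS.mem_sts, not_exists, not_and]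
    exact ⟨fun a v hv => (mem_union.1 (a.1 hv)).resolve_left fun b => a.2 v b hv,
      fun a => ⟨a.trans subset_union_right, fun v b hv => disjoint_left.1 (hty r).2 b (a hv)⟩⟩
  have e2 : ∀ r, fce S (ty r ∪ B.erase i) = fce S (ty r ∪ B) \ S.st i := fun r => by
    ext j
    simp only [mem_sdiff, mem_fce, MS.mem_st]
    refine ⟨fun a => ⟨a.trans (union_subset_union_right (erase_subset _ _)), fun b => ?_⟩,
      fun a v hv => ?_⟩
    · exact (mem_union.1 (a b)).elim (hni r) (notMem_erase _ _)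
    · exact mem_union.2 ((mem_union.1 (a.1 hv)).imp_right fun b =>
        mem_erase.2 ⟨fun e => a.2 (e ▸ hv), b⟩)
  have e3 : {i} ∪ B.erase i = B := by rw [← insert_eq, insert_erase hi]
  have hcard : ∀ q : Finset ι, q.card ≤ D := fun q => (card_le_univ q).trans hD
  have pB := vl_pos h.pd (fce S B \ S.st i)
  rw [den, le_div_iff₀ (vl_pos h.pd _)] at hd
  have h1 := dense_fib h hc hr i hβ.le hβ1 (η := η) (by
    have := mass_nar_mono h hc one_pos W1 (fce S B)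
    rw [nar_one] at this
    exact this.trans ((hsm B).mass h hc hr (by norm_num) W0.ne')) hd
  have h2 : ∀ r, ∑' y, S.wt (fce S B \ S.st i) y * ind (¬ Gen S (fce S (ty r ∪ B)) (ty r) i K
      D M (β / 2) W y) ≤ ε * vl S.G (fce S B \ S.st i) := fun r => by
    obtain ⟨a1, a2, a3⟩ := hn _ (card_le_univ (ty r))
    have := gen_bad h hc (cls_fce S (ty r ∪ B)) (hni r) hK (hcard _) hD1 M0 (Or.inl (hty r).1)
      (half_pos hβ) (by linarith) a1 a2 (hsm _)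
    rw [e1] at this
    exact this.trans (mul_le_mul_of_nonneg_right a3 pB.le)
  have h3 := wt_ind_and h (fce S B \ S.st i) (Fib S (fce S B) i (fun z => E (toR z)) (β / 2))
    fun y => ∀ r, Gen S (fce S (ty r ∪ B)) (ty r) i K D M (β / 2) W y
  have h4 := (wt_union (wt_wt h (fce S B \ S.st i)) _).trans (sum_le_sum fun r _ => h2 r)
  rw [sum_const, card_univ, nsmul_eq_mul, ← mul_assoc] at h4
  obtain ⟨T, hT⟩ : ∃ T, T = Fintype.piFinset (fun _ : κ => Icc 1 M) ×ˢ Fintype.piFinset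
    fun _ : ϱ => Fintype.piFinset fun _ : ϱ => Icc (-(M : ℤ) ^ 8) ((M : ℤ) ^ 8) := ⟨_, rfl⟩
  have mT : ∀ l k, (l, k) ∈ T ↔ (∀ r, 1 ≤ l r ∧ l r ≤ M) ∧ ∀ t ρ, |k t ρ| ≤ (M : ℤ) ^ 8 :=
    fun l k => by simp only [hT, mem_product, Fintype.mem_piFinset, mem_Icc, abs_le]
  have hT2 : (T.card : ℝ) = (M : ℝ) ^ Fintype.card κ *
      ((2 * (M : ℝ) ^ 8 + 1) ^ Fintype.card ϱ) ^ Fintype.card ϱ := by
    have a1 : ((Icc (-(M : ℤ) ^ 8) ((M : ℤ) ^ 8)).card : ℤ) = 2 * M ^ 8 + 1 := by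
      rw [Int.card_Icc_of_le _ _ (by linarith [pow_nonneg (Int.natCast_nonneg M) 8])]; ring
    have a2 : ((Icc (-(M : ℤ) ^ 8) ((M : ℤ) ^ 8)).card : ℝ) = 2 * M ^ 8 + 1 := by exact_mod_cast a1
    rw [hT, card_product, ← a2]
    simp only [Fintype.card_piFinset, prod_const, card_univ, Nat.card_Icc, add_tsub_cancel_right]
    push_cast; rfl
  have ga := fun ρ => (hch.ga ρ).aff i (mem_singleton_self i)
  obtain ⟨⟨l, k⟩, hl, h5⟩ := pigeonF (wt_wt h (fce S B \ S.st i)) T ⟨(1, 0), (mT _ _).2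
      ⟨fun _ => ⟨le_rfl, M0⟩, fun _ _ => by simp⟩⟩ (c := β / 4 * vl S.G (fce S B \ S.st i))
    (p := fun l y => Fib S (fce S B) i (fun z => E (toR z)) (β / 2) y ∧
      (∀ t, NF S (fce S B) {i} (lab S i fun w => ∑ ρ, l.2 t ρ * γ ρ w) ((M : ℝ) ^ 7) (toR y)) ∧
      ∀ v : ϱ → ℤ, (∀ t, l.2 t ⬝ᵥ v = 0) → ∀ r, NF S (fce S (ty r ∪ B) \ S.st i) (ty r)
        (fun z => l.1 r * ∑ ρ, v ρ * c r ρ z) ((M : ℝ) ^ 7 * (‖toR v‖ + 1) * K) (toR y))
    (le_trans (by linarith [mul_le_mul_of_nonneg_right hη pB.le,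
        mul_le_mul_of_nonneg_right hε pB.le])
      (h3.trans (wt_ind_mono h _ fun y hy => by
        choose l l1 l2 l3 using fun r => fib_r h hc (cls_fce S _) (hni r) (e1 r) (hch.ps r)
          (hch.pa r) (fun ρ => e2 r ▸ hch.cf r ρ) (fun ρ => (hch.ga ρ).on) ga hK (hcard _) hD1
          hDM hM hϱ (half_pos hβ) (by linarith) hβM hW (hy.2 r) hch.arc
          (fun z hz => hch.nr z hz r) hy.1
        obtain ⟨k, k1, k2⟩ := exists_gen {k | Rel (S.fg (fce S B) i (toR y))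
          (gm S (fce S B) i γ (toR y)) ((M : ℝ) ^ 8) ((M : ℝ) ^ 13) k}
          ⟨fun _ => by simp, 0, by simp [toR_zero, qq_zero]⟩
        exact ⟨(l, k), (mT _ _).2 ⟨fun r => ⟨l1 r, l2 r⟩, fun t ρ => by
          exact_mod_cast (k1 t).1 ρ⟩, hy.1, fun t => rel_nf h hc hr i
          (fun ρ => (hch.ga ρ).on) ga _ (k1 t) (by positivity) (by
            rw [← pow_mul]; exact pow_le_pow_right₀ M1 (by norm_num)),
          fun v hv r => l3 r v (k2 v hv)⟩)))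
  refine ⟨l, k, ((mT _ _).1 hl).1, fun t ρ => by exact_mod_cast ((mT _ _).1 hl).2 t ρ, ?_⟩
  rw [den, le_div_iff₀ (vl_pos h.pd _), ← hT2]
  rw [mul_div_right_comm] at h5
  refine fib_up h hc (fce S B) i (half_pos hβ).le (fun y hy => ⟨hy.1, fun x hx =>
    ⟨hx, fun t => ?_, fun v hv r => ?_⟩⟩) h5
  · unfold Nr
    rw [e3]
    refine nf_base (hy.2.1 t) fun j _ hj => ?_
    rw [sts_single] at hj
    rw [toR_put, put_neg _ _ fun a => hj (mem_inter.1 a).2]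
  · unfold Nr
    rw [e2]
    refine nf_base (hy.2.2 v hv r) fun j hj _ => ?_
    rw [toR_put, put_neg _ _ fun a => (mem_sdiff.1 hj).2 (mem_inter.1 a).2]

theorem dvm_num {Y : ℝ} (hY : 2 ≤ Y) (n : ℕ) :
    (2 * n + 160 : ℕ) * Y ≤ Y ^ (2 * n + 170) ∧ 512 * Y ^ 3 ≤ Y ^ (2 * n + 170) := by
  have h1 : ∀ m : ℕ, (m : ℝ) ≤ Y ^ m := fun m =>
    le_trans (by exact_mod_cast Nat.lt_two_pow_self.le) (pow_le_pow_left₀ (by norm_num) hY m)
  constructor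
  · refine (mul_le_mul_of_nonneg_right (h1 _) (by linarith)).trans ?_
    rw [← pow_succ]
    exact pow_le_pow_right₀ (by linarith) (by omega)
  · have h2 : (2 : ℝ) ^ 9 ≤ Y ^ 9 := pow_le_pow_left₀ (by norm_num) hY 9
    calc 512 * Y ^ 3 ≤ Y ^ 9 * Y ^ 3 := by gcongr; linarith
      _ = Y ^ 12 := by ring
      _ ≤ _ := pow_le_pow_right₀ (by linarith) (by omega)

theorem dvm_num2 {X W η D M : ℝ} {n a : ℕ} (X4 : 4 ≤ X) (a0 : a ≤ n) (D0 : 0 ≤ D) (D1 : D ≤ X)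
    (M0 : 0 ≤ M) (M2 : M ≤ X ^ 28) (hW : X ^ (2 * n + 160) ≤ W) (η0 : 0 ≤ η)
    (hη : X ^ (2 * n + 160) * η ≤ 1) :
    3 * ((4 * X + 1) * (4 * D + 2 * a + 2)) ≤ W ∧ (M ^ 3 * (6 * X) + 1) * (D + 2 * a + 2) ≤ W ∧
      2 ^ 18 * 7 ^ a * η / (X⁻¹ / 2) ^ 4 ≤ X⁻¹ / 8 * X⁻¹ := by
  have X1 : 1 ≤ X := by linarith
  have X0 : 0 < X := by linarith
  have mono : ∀ {a b : ℕ}, a ≤ b → X ^ a ≤ X ^ b := fun e => pow_le_pow_right₀ X1 e
  have p4 : ∀ a : ℕ, (4 : ℝ) ^ a ≤ X ^ a := fun a => pow_le_pow_left₀ (by norm_num) X4 a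
  have a1 : (a : ℝ) ≤ X ^ (n + 1) := le_trans (by
    exact_mod_cast (a0.trans (Nat.le_succ n)).trans (Nat.lt_pow_self (by norm_num)).le) (p4 _)
  have a2 : X ≤ X ^ (n + 1) := le_self_pow₀ X1 (by omega)
  have a4 : M ^ 3 ≤ X ^ 84 := by
    rw [show 84 = 28 * 3 from rfl, pow_mul]; gcongr
  refine ⟨?_, ?_, ?_⟩
  · refine le_trans ?_ ((mono (show n + 2 + 4 ≤ 2 * n + 160 by omega)).trans hW)
    calc _ ≤ 3 * ((5 * X) * (7 * X ^ (n + 1))) := by gcongr <;> linarith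
      _ = X ^ (n + 2) * 105 := by ring
      _ ≤ X ^ (n + 2) * X ^ 4 := by gcongr; linarith [p4 4]
      _ = _ := by ring
  · refine le_trans ?_ ((mono (show n + 86 + 3 ≤ 2 * n + 160 by omega)).trans hW)
    calc _ ≤ (X ^ 84 * (6 * X) + X ^ 85) * (4 * X ^ (n + 1)) := by
          gcongr
          · exact one_le_pow₀ X1
          · linarith
      _ = X ^ (n + 86) * 28 := by ring
      _ ≤ X ^ (n + 86) * X ^ 3 := by gcongr; linarith [p4 3]
      _ = _ := by ring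
  have a5 : (7 : ℝ) ^ a ≤ X ^ (2 * n) := by
    rw [pow_mul]
    exact (pow_le_pow_right₀ (by norm_num) a0).trans
      (pow_le_pow_left₀ (by norm_num) (by linarith [p4 2]) n)
  have a6 : X ^ (2 * n + 6) * 2 ^ 25 * η ≤ 1 := by
    refine le_trans (mul_le_mul_of_nonneg_right ?_ η0) hη
    calc _ ≤ X ^ (2 * n + 6) * X ^ 13 := by gcongr; linarith [p4 13]
      _ ≤ _ := by rw [← pow_add]; exact mono (by omega)
  rw [div_le_iff₀ (by positivity)]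
  calc _ ≤ 2 ^ 18 * X ^ (2 * n) * η := by gcongr
    _ = X ^ (2 * n + 6) * 2 ^ 25 * η * (X⁻¹ / 8 * X⁻¹ * (X⁻¹ / 2) ^ 4) := by field_simp; ring
    _ ≤ _ := mul_le_of_le_one_left (by positivity) a6

theorem dvm_num3 {Y Z M : ℝ} {a b : ℕ} (hY : 2 ≤ Y) (X4 : 4 ≤ Real.exp Y)
    (hZ : 512 * Y ^ 3 ≤ Z) (M1 : 1 ≤ M) (M2 : M ≤ Real.exp Y ^ 28) (ha : (a : ℝ) ≤ Y)
    (hb : (b : ℝ) ≤ Y) : M ^ a * M ^ 8 * (2 * Real.exp Y) ≤ Real.exp Z ∧
      Real.exp (-Z) ≤ (Real.exp Y)⁻¹ / 2 *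
        ((Real.exp Y)⁻¹ / 4 / (M ^ a * ((2 * M ^ 8 + 1) ^ b) ^ b)) := by
  have Y0 : 0 ≤ Y := by linarith
  have Y3 : Y ≤ Y ^ 3 := le_self_pow₀ (by linarith) (by norm_num)
  have Y23 : Y * Y ≤ Y ^ 3 := by nlinarith
  rw [← Real.exp_nat_mul] at M2
  have h1 := pow_exp (by linarith) M2 (by positivity) ha
  have h2 := pow_le_pow_left₀ (by linarith) M2 8
  rw [← Real.exp_nat_mul] at h2
  push_cast at h1 h2
  have h3 : 2 * M ^ 8 + 1 ≤ Real.exp (225 * Y) := by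
    rw [show 225 * Y = 8 * (28 * Y) + Y by ring, Real.exp_add]
    nlinarith [one_le_pow₀ M1 (n := 8)]
  have h4 := pow_exp (by positivity) (pow_exp (by positivity) h3 (by positivity) hb)
    (by positivity) hb
  constructor
  · calc _ ≤ Real.exp (Y * (28 * Y)) * Real.exp (8 * (28 * Y)) * (Real.exp Y * Real.exp Y) := by
          gcongr; linarith
      _ ≤ _ := by
        simp only [← Real.exp_add]
        exact Real.exp_le_exp.2 (by linarith)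
  rw [Real.exp_neg, show (Real.exp Y)⁻¹ / 2 * ((Real.exp Y)⁻¹ / 4 /
    (M ^ a * ((2 * M ^ 8 + 1) ^ b) ^ b)) = (8 * (Real.exp Y * Real.exp Y) *
      (M ^ a * ((2 * M ^ 8 + 1) ^ b) ^ b))⁻¹ by field_simp; norm_num]
  refine inv_anti₀ (by positivity) ?_
  calc _ ≤ Real.exp Y * Real.exp Y * (Real.exp Y * Real.exp Y) *
        (Real.exp (Y * (28 * Y)) * Real.exp (Y * (Y * (225 * Y)))) := by gcongr; nlinarith
    _ ≤ _ := by
      simp only [← Real.exp_add]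
      exact Real.exp_le_exp.2 (by linarith)

theorem dvm (V : Type) [Fintype V] [DecidableEq V] : DVM V := by
  classical
  refine ⟨2 * Fintype.card V + 170, ?_⟩
  intro ι _ _ S B i κ ϱ _ _ ty E γ Ψ c Y h hc hY hi hty hE hι hκ hϱ hs hch hd
  obtain ⟨n1, n2⟩ := dvm_num hY (Fintype.card V)
  generalize Y ^ (2 * Fintype.card V + 170) = Z at *
  have Y0 : 0 ≤ Y := by linarith
  have X4 : 4 ≤ Real.exp Y := by nlinarith [Real.quadratic_le_exp_of_nonneg Y0]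
  have YX : Y ≤ Real.exp Y := by linarith [Real.add_one_le_exp Y]
  have hW : Real.exp Y ^ (2 * Fintype.card V + 160) ≤ Real.exp Z := by
    rw [← Real.exp_nat_mul]; exact Real.exp_le_exp.2 n1
  have Z4 : 4 ≤ ⌈Z⌉₊ := by
    have : (4 : ℝ) ≤ Z := by nlinarith [pow_le_pow_left₀ (by norm_num) hY 3]
    exact_mod_cast this.trans (Nat.le_ceil Z)
  have n3 := fun M => dvm_num3 (M := M) hY X4 n2 (a := Fintype.card κ) (b := Fintype.card ϱ)
  rw [Real.exp_neg] at hd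
  generalize Real.exp Y = X at *
  have X1 : 1 ≤ X := by linarith
  have X0 : 0 < X := by linarith
  have mono : ∀ {a b : ℕ}, a ≤ b → X ^ a ≤ X ^ b := fun e => pow_le_pow_right₀ X1 e
  have p4 : ∀ a : ℕ, (4 : ℝ) ^ a ≤ X ^ a := fun a => pow_le_pow_left₀ (by norm_num) X4 a
  obtain ⟨M, M1, M2⟩ : ∃ M : ℕ, X ^ 27 ≤ M ∧ (M : ℝ) ≤ X ^ 28 := ⟨⌈X ^ 27⌉₊, Nat.le_ceil _,
    (Nat.ceil_lt_add_one (by positivity)).le.trans (by nlinarith [one_le_pow₀ X1 (n := 27)])⟩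
  have XM : X ≤ M := (le_self_pow₀ X1 (by norm_num)).trans M1
  have M12 : (12 : ℝ) ≤ M := le_trans (by linarith [p4 2, mono (show 2 ≤ 27 by norm_num)]) M1
  have D1 : (⌊X⌋₊ : ℝ) ≤ X := Nat.floor_le X0.le
  have Z0 := Real.exp_pos Z
  have η0 := Real.exp_pos (-Z)
  have hη : X ^ (2 * Fintype.card V + 160) * Real.exp (-Z) ≤ 1 := by
    rwa [Real.exp_neg, ← div_eq_mul_inv, div_le_one Z0]
  obtain ⟨l, k, h1, h2, h3⟩ := dvm_core h hc hi hty hch X0.le (D := ⌊X⌋₊) (M := M)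
    (Nat.le_floor hι) (Nat.le_floor (by simpa using X1)) (by exact_mod_cast D1.trans XM)
    (by exact_mod_cast M12) (by exact_mod_cast hϱ.trans (YX.trans XM)) (inv_pos.2 X0)
    (inv_le_one_of_one_le₀ X1) (by
      refine le_trans ?_ (mul_le_mul_of_nonneg_right M1 (by positivity))
      rw [show X ^ 27 * ((X⁻¹ / 2) ^ 4 / 8192) ^ 2 = X ^ 19 / 2 ^ 34 by field_simp; ring,
        le_div_iff₀ (by norm_num)]
      linarith [p4 19]) (W := Real.exp Z) (by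
      calc (M : ℝ) ^ 11 ≤ (X ^ 28) ^ 11 := by gcongr
        _ = (X ^ 154) ^ 2 := by ring
        _ ≤ _ := by gcongr; exact (mono (by omega)).trans hW) ((one_le_pow₀ X1).trans hW)
    (fun a ha => dvm_num2 X4 ha (Nat.cast_nonneg _) D1 (Nat.cast_nonneg _) M2 hW η0.le hη) (by
      rw [mul_left_comm]
      refine mul_le_of_le_one_right (by positivity) ?_
      rw [← div_eq_mul_inv, div_le_one X0]; linarith) (by
      have a1 : 16 * X * Real.exp (-Z) ≤ 1 := le_trans (mul_le_mul_of_nonneg_right (by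
        refine le_trans ?_ (mono (show 2 + 1 ≤ _ by omega))
        rw [pow_succ _ 2]; gcongr; linarith [p4 2]) η0.le) hη
      rw [le_div_iff₀ (by norm_num), ← one_div, le_div_iff₀ X0]
      linarith)
    (Smo.mono h hc (cls_univ S) (cls_univ S) hs le_rfl Z4 Z0 le_rfl le_rfl) hd
  have M0 : (1 : ℝ) ≤ M := by linarith
  obtain ⟨n4, n5⟩ := n3 M M0 M2 hκ hϱ
  have hq : ∀ s : Finset κ, ((∏ r ∈ s, l r : ℕ) : ℝ) ≤ (M : ℝ) ^ Fintype.card κ := fun s =>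
    le_trans (by exact_mod_cast prod_le_pow_card _ _ _ fun r _ => (h1 r).2)
      (pow_le_pow_right₀ M0 (card_le_univ s))
  have m1 := one_le_pow₀ M0 (n := Fintype.card κ)
  have m2 := one_le_pow₀ M0 (n := 8)
  have m3 : (M : ℝ) ^ 7 ≤ M ^ 8 := pow_le_pow_right₀ M0 (by norm_num)
  have m4 := (le_mul_of_one_le_right (by positivity) (show 1 ≤ 2 * X by linarith)).trans n4
  have m5 := (le_mul_of_one_le_left (by positivity) m1).trans m4
  refine ⟨∏ r, l r, k, prod_pos fun r _ => (h1 r).1,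
    (hq _).trans ((le_mul_of_one_le_right (by positivity) m2).trans m4),
    fun t ρ => (h2 t ρ).trans m5, n5.trans (h3.trans (div_le_div_of_nonneg_right
      (wt_ind_mono h _ fun z hz => ⟨hz.1, fun t => (hz.2.1 t).mono (m3.trans m5),
        fun v hv r => ?_⟩) (vl_pos h.pd _).le))⟩
  by_cases v0 : v = 0
  · exact ⟨fun _ => 0, Fm.zero _ _ _, IntV.zero, fun z _ => by simp [v0]⟩
  have a1 := nf_mul (hz.2.2 v hv r) ((∏ r' ∈ univ.erase r, l r' : ℕ) : ℤ)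
  have a2 : ∀ ρ, |(v ρ : ℝ)| ≤ ∑ ρ, |(v ρ : ℝ)| := fun ρ =>
    single_le_sum (f := fun ρ => |(v ρ : ℝ)|) (fun _ _ => abs_nonneg _) (mem_univ ρ)
  have a3 : 1 ≤ ∑ ρ, |(v ρ : ℝ)| := by
    obtain ⟨ρ, hρ⟩ := Function.ne_iff.1 v0
    exact le_trans (by exact_mod_cast Int.one_le_abs hρ) (a2 ρ)
  have a4 : ‖toR v‖ ≤ ∑ ρ, |(v ρ : ℝ)| := (pi_norm_le_iff_of_nonneg (by linarith)).2 a2
  rw [Int.cast_natCast, Nat.abs_cast] at a1
  simp only [← mul_assoc, ← Nat.cast_mul, prod_erase_mul _ _ (mem_univ r)] at a1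
  refine a1.mono ?_
  calc _ ≤ (M : ℝ) ^ Fintype.card κ * M ^ 8 * (2 * ∑ ρ, |(v ρ : ℝ)|) * X := by
        gcongr
        · exact hq _
        · linarith
    _ = (M : ℝ) ^ Fintype.card κ * M ^ 8 * (2 * X) * ∑ ρ, |(v ρ : ℝ)| := by ring
    _ ≤ _ := by gcongr

end Vale.Agent.P057CV
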