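import Vale.Agent.P057CV.Cov
import Vale.Agent.P057T1.Gen

/-!
Dense vanishing of a chart: one fibre.
-/

set_option linter.all false

open Matrix Finset
open scoped Real ENNReal
open Vale.Agent.P267.H775 Vale.Agent.P057G Vale.Agent.P057MA Vale.Agent.P057HU
open Vale.Agent.P057T1

namespace Vale.Agent.P057CV

noncomputable section

variable {V ι : Type*} [DecidableEq ι] [Fintype ι] [DecidableEq V] {S : MS V ι}

/-- the linear algebra of one fibre and the covering lemma -/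
theorem step_m (h : S.Ok) (hc : S.Cen) {q : Finset ι} (hq : Cls S q) {A : Finset V} {w : V}
    {Ψ Φ0 : (ι → ℝ) → ℝ} (hΨ : Fm S q (insert w A) Ψ) (hΦ0 : Fm S (q \ S.st w) A Φ0)
    {ϱ : Type*} [Fintype ϱ] [DecidableEq ϱ] {c : ϱ → (ι → ℝ) → ℝ}
    (hcf : ∀ ρ, Fm S (q \ S.st w) A (c ρ)) (y : ι → ℤ) {K P β : ℝ} (hK : 0 ≤ K)
    (Y : Set (↥((q \ S.sts A) ∩ S.st w) → ℤ)) (m : (↥((q \ S.sts A) ∩ S.st w) → ℤ) → ϱ → ℤ)
    (γ : Matrix ϱ ↥((q \ S.sts A) ∩ S.st w) ℝ) (cen : ϱ → ℝ)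
    (hm : ∀ x ∈ Y, ‖γ *ᵥ toR x - cen - toR (m x)‖ ≤ 1 / 4)
    (hY : ∀ x ∈ Y, ∃ e, Fm S ((q \ S.st w) ∩ S.sts A) A e ∧ IntV e ∧
      ∀ z, Bal S q (q ∩ S.sts A) (toR (put _ x y)) z →
        |Ψ z + Φ0 z + ∑ ρ, m x ρ * c ρ z - e z| ≤ K)
    (hP : 12 ≤ P) (hD : (q.card : ℝ) ≤ P) (hϱ : (Fintype.card ϱ : ℝ) ≤ P) (hβ : 0 < β)
    (hβ1 : β ≤ 1) (hβP : 6 ≤ P * β ^ 2)
    (hf : th (P ^ 11 • S.fg (q \ S.sts A) w (toR y))⁻¹ 0 ≤ 3 / 2)
    (hU : UF S (q \ S.st w) A (6 * P ^ 3 * K) (toR y)) (x0 : _ → ℝ)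
    (hw : β * vol (S.fg (q \ S.sts A) w (toR y)) ≤
      ∑' z, Y.indicator (fun x => gs (S.fg (q \ S.sts A) w (toR y)) (toR x - x0)) z) :
    ∃ n : ℕ, 1 ≤ n ∧ (n : ℝ) ≤ P ∧ ∀ v : ϱ → ℤ,
      (∀ k, Rel (S.fg (q \ S.sts A) w (toR y)) γ (P ^ 8) (P ^ 13) k → k ⬝ᵥ v = 0) →
      NF S (q \ S.st w) A (fun z => n * ∑ ρ, v ρ * c ρ z) (P ^ 7 * (‖toR v‖ + 1) * K) (toR y) := by
  let Q := (q \ S.sts A) ∩ S.st w
  have hQ : Q = (q \ S.sts A) ∩ S.st w := rfl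
  set N := (q ∩ S.sts A) ∩ S.st w with hN
  set A0 := (q \ S.st w) ∩ S.sts A with hA0
  have hHp := h.fg_pos (q \ S.sts A) w (toR y)
  have mP : ∀ j, j ∈ Q ↔ j ∈ q ∧ j ∉ S.sts A ∧ j ∈ S.st w := fun j => by
    simp only [hQ, mem_inter, mem_sdiff, and_assoc]
  have mN : ∀ j, j ∈ N ↔ j ∈ q ∧ j ∈ S.sts A ∧ j ∈ S.st w := fun j => by
    simp only [hN, mem_inter, and_assoc]
  have mA : ∀ j, j ∈ A0 ↔ j ∈ q ∧ j ∉ S.st w ∧ j ∈ S.sts A := fun j => by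
    simp only [hA0, mem_inter, mem_sdiff, and_assoc]
  have hq0 : Cls S (q \ S.st w) := hq.sdiff_st w
  have hPv : ∀ v ∈ A, ∀ j ∈ Q, j ∉ S.st v := fun v hv j hj a =>
    ((mP j).1 hj).2.1 (MS.st_subset_sts hv a)
  have hcov : ∀ {f : (ι → ℝ) → ℝ}, (∀ v ∈ A, Lin (S.st v) f) →
      ∀ j ∈ A0, ∃ t, j ∈ t ∧ Lin t f := fun hf j hj => by
    obtain ⟨v, h1, h2⟩ := MS.mem_sts.1 ((mA j).1 hj).2.2
    exact ⟨_, S.mem_st.2 h2, hf v h1⟩
  let Θ : (ι → ℝ) → ℝ := fun z => Ψ (sc S N z)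
  have hΘo : ∀ z z', (∀ j ∈ q \ N, z j = z' j) → Θ z = Θ z' := fun z z' e =>
    hΨ.on _ _ (sc_loc h hq e)
  have hΘl : ∀ v ∈ insert w A, Lin (S.st v) Θ := fun v hv =>
    P057T1.lin_comp (hΨ.lin v hv) (rmap_sc h hc v N)
  let Bl := {z : ι → ℝ // Bal S (q \ S.st w) A0 (toR y) z}
  have hput : ∀ (x : Q → ℝ) (b : ι → ℝ), Θ (put Q x b) = Θ (mix (S.st w) (put Q x 0) b) :=
    fun x b => hΘo _ _ fun j hj => by
      by_cases h1 : j ∈ Q
      · rw [put_pos _ _ h1, mix_pos _ _ ((mP j).1 h1).2.2, put_pos _ _ h1]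
      · have h2 : j ∉ S.st w := fun a => by
          have := mem_sdiff.1 hj
          rw [mN] at this; rw [mP] at h1; tauto
        rw [put_neg _ _ h1, mix_neg _ _ h2]
  have hbd : ∀ x : Q → ℝ, ∃ C, ∀ b : Bl, |Θ (put Q x b.1)| ≤ C := fun x => by
    obtain ⟨C, hC⟩ := form_bdd h hc hq0 (s := A0) inter_subset_left (toR y)
      (f := fun z => Θ (put Q x z)) (fun z z' e => hΘo _ _ fun j hj => by
        by_cases h1 : j ∈ Q
        · rw [put_pos _ _ h1, put_pos _ _ h1]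
        · rw [put_neg _ _ h1, put_neg _ _ h1]
          refine e j ?_
          have := mem_sdiff.1 hj
          rw [mN] at this; rw [mP] at h1; rw [mem_sdiff]; tauto)
      (hcov fun v hv => P057T1.lin_comp (hΘl v (mem_insert_of_mem hv)) (lin_put (hPv v hv) x))
    exact ⟨C, fun b => hC b.1 b.2⟩
  have hpa : ∀ x x' : Q → ℝ, put Q (x + x') (0 : ι → ℝ) = put Q x 0 + put Q x' 0 := fun x x' => by
    funext j; simp only [put, Pi.add_apply]; split_ifs <;> simp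
  have hem : ∀ f : (ι → ℝ) → ℝ, Fm S (q \ S.st w) A f → ∃ e : BF Bl, ∀ b, e b = f b.1 :=
    fun f hf => by
      obtain ⟨C, hC⟩ := form_bdd h hc hq0 (s := A0) inter_subset_left (toR y) hf.on (hcov hf.lin)
      exact ⟨mkB (fun b : Bl => f b.1) ⟨C, fun b => hC b.1 b.2⟩, fun _ => rfl⟩
  have hsum : ∀ v : ϱ → ℤ, Fm S (q \ S.st w) A fun z => ∑ ρ, v ρ * c ρ z := fun v =>
    Fm.sum _ fun ρ _ => (hcf ρ).smul _
  choose ev hev using fun v => hem _ (hsum v)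
  let L : (Q → ℤ) × (ϱ → ℤ) →+ BF Bl := AddMonoidHom.mk'
    (fun p => mkB (fun b => Θ (put Q (toR p.1) b.1)) (hbd _) + ev p.2) fun p p' =>
      lp.ext (funext fun b => by
        change Θ (put Q (toR (p.1 + p'.1)) b.1) + ev (p.2 + p'.2) b =
          Θ (put Q (toR p.1) b.1) + ev p.2 b + (Θ (put Q (toR p'.1) b.1) + ev p'.2 b)
        have e1 := (hΘl w (mem_insert_self _ _) b.1).map_add (put Q (toR p.1) 0)
          (put Q (toR p'.1) 0)
        beta_reduce at e1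
        rw [hput, hput, hput, toR_add, hpa, e1, hev, hev, hev]
        simp only [Pi.add_apply, Int.cast_add, add_mul, sum_add_distrib]
        ring)
  have hL : ∀ p b, L p b = Θ (put Q (toR p.1) b.1) + ∑ ρ, p.2 ρ * c ρ b.1 := fun p b => by
    rw [← hev]; rfl
  let Γ : AddSubgroup (BF Bl) :=
    { carrier := {e | ∃ η, Fm S A0 A η ∧ IntV η ∧ ∀ b : Bl, e b = η b.1}
      zero_mem' := ⟨fun _ => 0, Fm.zero _ _ _, IntV.zero, fun _ => rfl⟩
      add_mem' := by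
        rintro a b ⟨η, h1, h2, h3⟩ ⟨η', h1', h2', h3'⟩
        exact ⟨_, h1.add h1', h2.add h2', fun c => by rw [← h3, ← h3']; rfl⟩
      neg_mem' := by
        rintro a ⟨η, h1, h2, h3⟩
        exact ⟨_, h1.neg, h2.neg, fun c => by rw [← h3]; rfl⟩ }
  have hΓ : ∀ g ∈ Γ, ‖g‖ ≤ 6 * P ^ 3 * K → g = 0 := by
    rintro g ⟨η, h1, h2, h3⟩ hn
    have := hU η h1 h2 fun z hz => by
      rw [← h3 ⟨z, hz⟩]; exact (bf_le g _).trans hn
    exact lp.ext (funext fun b => by rw [h3, this]; rfl)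
  have hpos0 : ∀ z z' : ι → ℝ, (∀ j ∈ q \ S.st w, z j = z' j) → ln2 S A0 z = ln2 S A0 z' :=
    fun z z' e => ln2_congr fun j hj => by
      rw [e j (mem_inter.1 hj).1, cls_p h hq0 e (mem_inter.1 hj).1]
  have hspl : ∀ z, ln2 S (q ∩ S.sts A) z = ln2 S N z + ln2 S A0 z := fun z => by
    rw [ln2_split h (h.sat_st w)]
    congr 2; ext j; rw [mA]; simp only [mem_inter, mem_sdiff]; tauto
  have hsc0 : ∀ z, ln2 S N (sc S N z) = 0 := fun z => by
    rw [ln2, show msk N (sc S N z - S.p (sc S N z)) = 0 from funext fun j => ?_, qq_zero]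
    by_cases hj : j ∈ N
    · rw [msk_pos _ hj, Pi.sub_apply, ← sc_fix h z hj, sub_self]; rfl
    · exact msk_neg _ hj
  have hsw : ∀ (x : Q → ℝ) (b : ι → ℝ), ∀ j ∈ q \ S.st w, sc S N (put Q x b) j = b j :=
    fun x b j hj => by
      have h1 := (mem_sdiff.1 hj).2
      rw [sc_out fun a => h1 ((mN j).1 a).2.2, put_neg _ _ fun a => h1 ((mP j).1 a).2.2]
  have hfr : ∀ (x : Q → ℤ) (b : Bl), ∀ j ∈ q \ (q ∩ S.sts A),
      sc S N (put Q (toR x) b.1) j = toR (put Q x y) j := fun x b j hj => by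
    have h1 : j ∈ q ∧ j ∉ S.sts A := by
      simp only [mem_inter, mem_sdiff] at hj; tauto
    rw [sc_out fun a => h1.2 ((mN j).1 a).2.1, toR_put]
    by_cases h2 : j ∈ Q
    · rw [put_pos _ _ h2, put_pos _ _ h2]
    · rw [put_neg _ _ h2, put_neg _ _ h2]
      refine b.2.1 j ?_
      rw [mP] at h2; rw [mem_sdiff, mem_sdiff, mA]; tauto
  obtain ⟨c0, hc0⟩ := hem _ hΦ0.neg
  have hS : ∀ x ∈ Y, Cl Γ K (L (x, m x) - c0) := fun x hx => by
    obtain ⟨e, h1, h2, h3⟩ := hY x hx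
    obtain ⟨g, hg⟩ := hem e (h1.mono inter_subset_left le_rfl)
    refine ⟨g, ⟨e, h1, h2, hg⟩, bf_norm_le _ hK fun b => ?_⟩
    have h4 := h3 (sc S N (put Q (toR x) b.1)) ⟨hfr x b, by
      rw [hspl, hsc0, zero_add, hpos0 _ _ (hsw _ _)]; exact b.2.2⟩
    have h5 := (hsum (m x)).on _ b.1 (hsw (toR x) b.1)
    beta_reduce at h5
    rw [h1.on _ b.1 fun j hj => hsw _ _ j (mem_inter.1 hj).1, hΦ0.on _ b.1 (hsw _ _), h5] at h4
    refine le_of_eq_of_le (congrArg _ ?_) h4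
    change L (x, m x) b - c0 b - g b = Θ (put Q (toR x) b.1) + _ + _ - _
    rw [hL, hc0, hg]; ring
  obtain ⟨n, n1, n2, -, hn⟩ := covr hHp hP (le_trans (by
    rw [Fintype.card_coe]
    exact_mod_cast card_le_card (inter_subset_left.trans sdiff_subset)) hD) hϱ (τ := 1 / 4)
    (by linarith) le_rfl hf γ cen hβ hβP hβ1 hK Γ hΓ L x0 Y m c0 hm hS hw
  refine ⟨n, n1, n2, fun v hv => ?_⟩
  obtain ⟨g, ⟨η, g1, g2, g3⟩, g4⟩ := hn v hv
  refine ⟨η, g1, g2, fun z hz => ?_⟩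
  have a1 := (bf_le _ ⟨z, hz⟩).trans g4
  refine le_of_eq_of_le (congrArg _ ?_) a1
  have a2 : Θ (put Q (toR (0 : Q → ℤ)) z) = 0 := by
    rw [hput, show put Q (toR (0 : Q → ℤ)) (0 : ι → ℝ) = 0 from funext fun j => by
      simp only [put]; split_ifs <;> simp]
    exact (hΘl w (mem_insert_self _ _)).zero z
  have a3 : (n • L (0, v) - g) ⟨z, hz⟩ = n * L (0, v) ⟨z, hz⟩ - g ⟨z, hz⟩ := by
    rw [← nsmul_eq_mul]; rfl
  rw [a3, hL, g3, a2, zero_add]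

variable [Fintype V]

/-- the labels along a generic parallelogram, with a term that does not see `w` -/
theorem lab_quad2 (h : S.Ok) (hc : S.Cen) {q : Finset ι} (hq : Cls S q) {A : Finset V} {w : V}
    (hw : w ∉ A) {Φ : (ι → ℝ) → ℝ} (hΦ : Aff (S.st w) Φ) (y : ι → ℝ)
    (x : Fin 4 → ↥((q \ S.sts A) ∩ S.st w) → ℝ) {Y : BI S.fc (0 : Fin 4) → ℝ}
    (hY : ∀ c, ∀ j ∈ q \ S.sts A, Y (cq S w c j) = put _ (x c) y j) {K : ℝ}
    (hU : UF (nar (blow S 0) 3) (q4 S q w) (a4 A) (4 * K) Y) {a b c d : (ι → ℝ) → ℝ}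
    {g : Fin 4 → (ι → ℝ) → ℝ} (hg : ∀ j z z', (∀ i ∉ S.st w, z i = z' i) → g j z = g j z')
    (h0 : ∀ z, g 0 z - g 1 z - g 2 z + g 3 z = 0)
    (ha : Fm S (q ∩ S.sts A) A a ∧ IntV a ∧
      ∀ z, Bal S q (q ∩ S.sts A) (put _ (x 0 + x 2) y) z → |Φ z + g 0 z - a z| ≤ K)
    (hb : Fm S (q ∩ S.sts A) A b ∧ IntV b ∧
      ∀ z, Bal S q (q ∩ S.sts A) (put _ (x 0 + x 3) y) z → |Φ z + g 1 z - b z| ≤ K)
    (hc' : Fm S (q ∩ S.sts A) A c ∧ IntV c ∧
      ∀ z, Bal S q (q ∩ S.sts A) (put _ (x 1 + x 2) y) z → |Φ z + g 2 z - c z| ≤ K)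
    (hd : Fm S (q ∩ S.sts A) A d ∧ IntV d ∧
      ∀ z, Bal S q (q ∩ S.sts A) (put _ (x 1 + x 3) y) z → |Φ z + g 3 z - d z| ≤ K) :
    lab S w a = lab S w c ∧ Fm S (q ∩ S.sts A) (insert w A) (lab S w c) := by
  have key := hU (fun Z => a (pr S w 0 2 Z) - b (pr S w 0 3 Z) - c (pr S w 1 2 Z) +
      d (pr S w 1 3 Z))
    ((((fm_pr hw 0 2 ha.1).sub (fm_pr hw 0 3 hb.1)).sub (fm_pr hw 1 2 hc'.1)).add
      (fm_pr hw 1 3 hd.1))
    ((((intV_pr w 0 2 ha.2.1).sub (intV_pr w 0 3 hb.2.1)).sub (intV_pr w 1 2 hc'.2.1)).add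
      (intV_pr w 1 3 hd.2.1)) fun Z hZ => by
      have a1 := abs_le.1 (ha.2.2 _ (bal_pr h hc hq hw y x hY hZ 0 2))
      have a2 := abs_le.1 (hb.2.2 _ (bal_pr h hc hq hw y x hY hZ 0 3))
      have a3 := abs_le.1 (hc'.2.2 _ (bal_pr h hc hq hw y x hY hZ 1 2))
      have a4 := abs_le.1 (hd.2.2 _ (bal_pr h hc hq hw y x hY hZ 1 3))
      have e : ∀ j s t, g j (pr S w s t Z) = g j (Z ∘ cq S w 0) := fun j s t =>
        hg j _ _ fun i hi => mix_neg _ _ hi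
      rw [aff_pr _ _ hΦ, e] at a1 a2 a3 a4
      have a5 := h0 (Z ∘ cq S w 0)
      rw [abs_le]; constructor <;> linarith [a1.1, a1.2, a2.1, a2.2, a3.1, a3.2, a4.1, a4.2]
  refine lab_of_id (b := b) (d := d) hc'.1 fun u t => ?_
  have := key fun i => if w ∈ S.fc i.1.1 then t (i.1.2 w) i.1.1 else u i.1.1
  have e : ∀ a b, pr S w a b (fun i : BI S.fc (0 : Fin 4) =>
      if w ∈ S.fc i.1.1 then t (i.1.2 w) i.1.1 else u i.1.1) = mix (S.st w) (t a + t b) u :=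
    fun a b => by
      funext j
      by_cases hj : j ∈ S.st w
      · have h1 := S.mem_st.1 hj
        have h2 : ∀ c, (cq S w c j).1.2 w = c := fun c => cq_w hj c
        have h3 : ∀ c, (cq S w c j).1.1 = j := fun _ => rfl
        rw [pr, mix_pos _ _ hj, mix_pos _ _ hj]
        simp only [h2, h3, if_pos h1, Pi.add_apply]
      · rw [pr, mix_neg _ _ hj, mix_neg _ _ hj]
        exact if_neg fun e => hj (S.mem_st.2 e)
  simpa only [e] using this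

/-- a dense set of nearly integral slices of a chart in a generic fibre -/
theorem fib_m (h : S.Ok) (hc : S.Cen) {q : Finset ι} (hq : Cls S q) {A : Finset V} {w : V}
    (hw : w ∉ A) {Φ : (ι → ℝ) → ℝ} (hΦ : Fm S q A Φ) (hΦw : Aff (S.st w) Φ)
    {ϱ : Type*} [Fintype ϱ] [DecidableEq ϱ] {c : ϱ → (ι → ℝ) → ℝ}
    (hcf : ∀ ρ, Fm S (q \ S.st w) A (c ρ)) {y : ι → ℤ} {K β W : ℝ} (hK : 0 ≤ K) {D M : ℕ}
    (hD : q.card ≤ D) (hD1 : 1 ≤ D) (hDM : D ≤ M) (hM : 12 ≤ M) (hϱ : Fintype.card ϱ ≤ M)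
    (hβ : 0 < β) (hβ1 : β ≤ 1) (hβM : 6 ≤ M * (β ^ 4 / 8192) ^ 2) (hW : (M : ℝ) ^ 11 ≤ W ^ 2)
    (hG : Gen S q A w K D M β W y) {E : (ι → ℤ) → Prop}
    (m : (↥((q \ S.sts A) ∩ S.st w) → ℤ) → ϱ → ℤ)
    (γ : Matrix ϱ ↥((q \ S.sts A) ∩ S.st w) ℝ) (cen : ϱ → ℝ)
    (hm : ∀ x, E (put _ x y) → ∀ ρ, |(γ *ᵥ toR x) ρ - cen ρ - m x ρ| ≤ 1 / 5)
    (hE : ∀ x, E (put _ x y) →
      NF S q A (fun z => Φ z + ∑ ρ, m x ρ * c ρ z) K (toR (put _ x y)))
    (hF : Fib S (q \ S.sts A) w E β y) :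
    ∃ n : ℕ, 1 ≤ n ∧ n ≤ M ∧ ∀ v : ϱ → ℤ,
      (∀ k, Rel (S.fg (q \ S.sts A) w (toR y)) γ ((M : ℝ) ^ 8) ((M : ℝ) ^ 13) k → k ⬝ᵥ v = 0) →
      NF S (q \ S.st w) A (fun z => n * ∑ ρ, v ρ * c ρ z)
        ((M : ℝ) ^ 7 * (‖toR v‖ + 1) * K) (toR y) := by
  classical
  have hH := h.fg_pos (q \ S.sts A) w (toR y)
  have hD' : (1 : ℝ) ≤ D := by exact_mod_cast hD1
  have hM' : (12 : ℝ) ≤ M := by exact_mod_cast hM
  have hDM' : (D : ℝ) ≤ M := by exact_mod_cast hDM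
  have hW2 : (D : ℝ) ≤ W ^ 2 :=
    hDM'.trans ((le_self_pow₀ (by linarith) (by norm_num)).trans hW)
  have f1 := (th_inv_smul hH one_pos (hD'.trans hW2)).trans hG.1
  have f2 := (th_inv_smul hH (by linarith) hW2).trans hG.1
  have f3 := (th_inv_smul hH (by positivity) hW).trans hG.1
  rw [one_smul] at f1
  obtain ⟨t, a, b, h1, h2, h3⟩ := quad_popular hH (lam := D) (β := β) (η := β ^ 4 / 512)
    (by linarith) (by
      rw [Fintype.card_coe]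
      exact_mod_cast (card_le_card (inter_subset_left.trans sdiff_subset)).trans hD) hβ
    (by linarith) (by linarith) 0 {x | E (put _ x y)} (hF.trans_eq (tsum_congr fun x => by
      by_cases hx : E (put _ x y)
      · rw [Set.indicator_of_mem (show x ∈ {x | E (put _ x y)} from hx), ind_pos hx, mul_one]
      · rw [Set.indicator_of_notMem (show x ∉ {x | E (put _ x y)} from hx), ind_neg hx,
          mul_zero]))
    (fun a b c d => ¬ UF (nar (blow S 0) 3) (q4 S q w) (a4 A) (4 * K)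
      (toR (asm S (q \ S.sts A) w y ![a, b, c, d]))) le_rfl (le_of_eq_of_le (by
        unfold nest ind; congr!) hG.2.2)
  have hη : ∀ x, ∃ η, E (put _ x y) → Fm S (q ∩ S.sts A) A η ∧ IntV η ∧
      ∀ z, Bal S q (q ∩ S.sts A) (put _ (toR x) (toR y)) z →
        |Φ z + ∑ ρ, m x ρ * c ρ z - η z| ≤ K := fun x => by
    by_cases hx : E (put _ x y)
    · obtain ⟨η, h4⟩ := hE x hx
      exact ⟨η, fun _ => by simpa only [toR_put] using h4⟩
    · exact ⟨fun _ => 0, fun a => absurd a hx⟩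
  choose η hη using hη
  set Z := {p | p ∈ {x | E (put _ x y)} ∧ p - a + b ∈ {x | E (put _ x y)} ∧
    ¬ ¬ UF (nar (blow S 0) 3) (q4 S q w) (a4 A) (4 * K)
      (toR (asm S (q \ S.sts A) w y ![p - a, t, a, b]))} with hZ
  have key : ∀ p ∈ Z, lab S w (η p) = lab S w (η (t + a)) ∧
      Fm S (q ∩ S.sts A) (insert w A) (lab S w (η (t + a))) := fun p hp => by
    have e0 : ∀ ρ, (m p ρ : ℝ) - m (p - a + b) ρ - m (t + a) ρ + m (t + b) ρ = 0 := fun ρ => by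
      have b1 := abs_le.1 (hm p hp.1 ρ)
      have b2 := abs_le.1 (hm _ hp.2.1 ρ)
      have b3 := abs_le.1 (hm _ h1 ρ)
      have b4 := abs_le.1 (hm _ h2 ρ)
      simp only [toR_add, toR_sub', mulVec_add, mulVec_sub, Pi.add_apply, Pi.sub_apply]
        at b2 b3 b4
      have b5 : |m p ρ - m (p - a + b) ρ - m (t + a) ρ + m (t + b) ρ| < 1 := by
        have : |(m p ρ : ℝ) - m (p - a + b) ρ - m (t + a) ρ + m (t + b) ρ| < 1 := by
          rw [abs_lt]; constructor <;> linarith [b1.1, b1.2, b2.1, b2.2, b3.1, b3.2, b4.1, b4.2]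
        exact_mod_cast this
      exact_mod_cast Int.abs_lt_one_iff.1 b5
    refine lab_quad2 h hc hq hw hΦw (toR y)
      (fun c => toR ((![p - a, t, a, b] : Fin 4 → _) c)) (fun c j hj => ?_) (not_not.1 hp.2.2)
      (b := η (p - a + b)) (d := η (t + b))
      (g := fun j z => ∑ ρ, m ((![p, p - a + b, t + a, t + b] : Fin 4 → _) j) ρ * c ρ z)
      (fun j z z' e => sum_congr rfl fun ρ _ => by
        rw [(hcf ρ).on z z' fun i hi => e i (mem_sdiff.1 hi).2]) (fun z => ?_) ?_ ?_ ?_ ?_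
    · rw [toR_apply, asm_cq w y _ c hj, ← toR_put]; rfl
    · simp only [cons_val_zero, cons_val_one, Matrix.cons_val]
      rw [← sum_sub_distrib, ← sum_sub_distrib, ← sum_add_distrib]
      exact sum_eq_zero fun ρ _ => by linear_combination c ρ z * e0 ρ
    · simpa only [cons_val_zero, Matrix.cons_val, ← toR_add, sub_add_cancel] using hη p hp.1
    · simpa only [cons_val_zero, cons_val_one, Matrix.cons_val, ← toR_add] using hη _ hp.2.1
    · simpa only [cons_val_one, cons_val_zero, Matrix.cons_val, ← toR_add] using hη _ h1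
    · simpa only [cons_val_one, cons_val_zero, Matrix.cons_val, ← toR_add] using hη _ h2
  have hne : Z.Nonempty := by
    by_contra h0
    rw [Set.not_nonempty_iff_eq_empty.1 h0] at h3
    simp only [Set.indicator_empty, tsum_zero] at h3
    exact absurd h3 (not_le.2 (mul_pos (by positivity) (vol_pos hH)))
  obtain ⟨p0, hp0⟩ := hne
  have hi := (hη _ h1).2.1
  obtain ⟨n, a1, a2, a3⟩ := step_m h hc hq (Ψ := fun z => lab S w Φ z - lab S w (η (t + a)) z)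
    ((fm_lab hΦ hΦw).sub ((key p0 hp0).2.mono inter_subset_left le_rfl)) (fm_kill w hΦ) hcf y
    (P := M) hK Z m γ cen
    (fun p hp => (pi_norm_le_iff_of_nonneg (by norm_num)).2 fun ρ =>
      (hm p hp.1 ρ).trans (by norm_num))
    (fun p hp => ⟨_, fm_cut w (hη p hp.1).1, intV_cut _ (hη p hp.1).2.1, fun z hz => by
      rw [← (key p hp).1]
      refine le_of_eq_of_le (congrArg _ ?_)
        ((hη p hp.1).2.2 z (by simpa only [toR_put] using hz))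
      simp only [lab]; ring⟩) hM' (le_trans (by exact_mod_cast hD) hDM') (by exact_mod_cast hϱ)
    (β := β ^ 4 / 8192) (by positivity) (by linarith [pow_le_one₀ hβ.le hβ1 (n := 4)]) hβM f3
    (by simpa only [mul_comm, mul_left_comm, mul_assoc] using hG.2.1) _ h3
  exact ⟨n, a1, by exact_mod_cast a2, a3⟩

end

end Vale.Agent.P057CV
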